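/-
S0270 (helper31), blueprint v3 §H/§I: the `F⁰`-lifts of a commutative subalgebra at a cut.

Setting: `L : Lv`, the cut `w`, `F' ≤ R` a `K'`-subalgebra.  `Lifts L w F' γ t a`: some element of
`F'` has value `≥ γ` and coefficient `a e_t` at `γ`.

* `lift0`: the `K`-subalgebra of `a ∈ A` lifted at value `0`;
* `Lifts.mul'`, `Lifts.pow`, `Lifts.shift`;
* `lifts_adjoin` (Kummer): if `β` (value `0`) and `y₀` (at `γ`, `t`) are lifted and commute then
  every `f ∈ K[β,y₀]` is lifted at `(rγ, rt)` for every `r`;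
* `coSub_le_lead`: the leading spaces of `F'` contain `K̂ K[β,y₀] e^r`;
* `mul_finrank_le`: `m [K[β,y₀]:K] ≤ dim_K' F'`;
* `lead_eq_coSub` (H1): equality of the leading spaces under the class bound;
* `hasL_aeval` (Taylor): `H ≡ β + W`: `P(H) - P(β)` has lead `P'(β) y e_t`;
* `hasL_aeval_frame`: the same through a frame `g`.
-/
import Crest.Agent.Kurosh.LeadRh
import Crest.Agent.Kurosh.CentFactsB

set_option autoImplicit false
set_option linter.unusedSectionVars false

namespace Crest.Agent.Kurosh.FLift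

open THS THSLead Hensel LU Module Polynomial
open LeadVN LeadVN.LvData

variable {K A K' R : Type*} [Field K] [DivisionRing A] [Algebra K A] [Field K'] [DivisionRing R]
  [Algebra K R] [Algebra K' R] [Algebra K K'] [IsScalarTower K K' R] {τ : A →ₗ[K] K}
  [FiniteDimensional K A] (L : Lv K A K' R τ) (w : ℕ)

lemma jG_add (g h : GLv) : jG (g + h) = jG g + jG h := rfl
lemma kG_add (g h : GLv) : kG (g + h) = kG g + kG h := map_add κ _ _
lemma jV_add (g h : GV) : (ofLex (g + h)).1 = (ofLex g).1 + (ofLex h).1 := rfl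
lemma jV_zero : (ofLex (0 : GV)).1 = 0 := rfl
lemma kG_zero_ker : kG ((0 : (piN w).ker) : GLv) = 0 := map_zero κ

lemma jV_nsmul (r : ℕ) (g : GV) : (ofLex (r • g)).1 = (r : ℤ) * (ofLex g).1 := by
  induction r with
  | zero => simp
  | succ r ih =>
    rw [succ_nsmul, jV_add, ih]
    push_cast
    ring

lemma kG_nsmul (r : ℕ) (t : (piN w).ker) : kG (r • t : (piN w).ker).1 = (r : ℤ) * kG t.1 := by
  induction r with
  | zero =>
    simp only [zero_smul, Nat.cast_zero, zero_mul]
    exact kG_zero_ker w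
  | succ r ih =>
    rw [succ_nsmul]
    show kG ((r • t : (piN w).ker).1 + t.1) = _
    rw [kG_add, ih]
    push_cast
    ring

/-- The element `a e_t` at `γ` is the lead of an element of `F'`. -/
def Lifts (F' : Subalgebra K' R) (γ : GV) (t : (piN w).ker) (a : A) : Prop :=
  ∃ x ∈ F', HasL L w x γ t a

variable {L w} {F' : Subalgebra K' R}

namespace Lifts

lemma of_eq {γ : GV} {t : (piN w).ker} {a b : A} (h : Lifts L w F' γ t a) (hab : a = b) :
    Lifts L w F' γ t b := hab ▸ h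

lemma add {γ : GV} {t : (piN w).ker} {a b : A} (ha : Lifts L w F' γ t a)
    (hb : Lifts L w F' γ t b) : Lifts L w F' γ t (a + b) := by
  obtain ⟨x, hx, hxL⟩ := ha
  obtain ⟨y, hy, hyL⟩ := hb
  exact ⟨x + y, F'.add_mem hx hy, hxL.add hyL⟩

lemma zero (γ : GV) (t : (piN w).ker) : Lifts L w F' γ t (0 : A) := by
  refine ⟨0, F'.zero_mem, ?_⟩
  refine ⟨?_, ?_⟩
  · rw [(gr L w).val_zero]
    exact le_top
  · rw [map_zero, mh_zero_right]

lemma algebraMap_K (c : K) : Lifts L w F' 0 0 (algebraMap K A c) := by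
  refine ⟨algebraMap K R c, ?_, HasL.algebraMap_K c⟩
  rw [IsScalarTower.algebraMap_apply K K' R]
  exact F'.algebraMap_mem _

lemma one : Lifts L w F' 0 0 (1 : A) :=
  ⟨1, F'.one_mem, HasL.one⟩

/-- Products with the phase. -/
lemma mul {γ δ : GV} {t u : (piN w).ker} {a b : A} (ha : Lifts L w F' γ t a)
    (hb : Lifts L w F' δ u b) :
    Lifts L w F' (γ + δ) (t + u) ((L.ζ ^ ((ofLex γ).1 * kG u.1)) • (a * b)) := by
  obtain ⟨x, hx, hxL⟩ := ha
  obtain ⟨y, hy, hyL⟩ := hb
  exact ⟨x * y, F'.mul_mem hx hy, hxL.mul hyL⟩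

/-- Scaling by `K`. -/
lemma smul {γ : GV} {t : (piN w).ker} {a : A} (c : K) (ha : Lifts L w F' γ t a) :
    Lifts L w F' γ t (c • a) := by
  have h := (algebraMap_K (L := L) (w := w) (F' := F') c).mul ha
  rw [zero_add, zero_add, jV_zero, zero_mul, zpow_zero, one_smul] at h
  exact h.of_eq (by rw [Algebra.smul_def])

/-- Products without the phase (the phase is a scalar of `K`). -/
lemma mul' {γ δ : GV} {t u : (piN w).ker} {a b : A} (ha : Lifts L w F' γ t a)
    (hb : Lifts L w F' δ u b) : Lifts L w F' (γ + δ) (t + u) (a * b) := by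
  have h := (ha.mul hb).smul ((L.ζ ^ ((ofLex γ).1 * kG u.1))⁻¹)
  refine h.of_eq ?_
  rw [smul_smul, inv_mul_cancel₀ (zpow_ne_zero _ L.ζ_ne), one_smul]

lemma pow {γ : GV} {t : (piN w).ker} {a : A} (ha : Lifts L w F' γ t a) (r : ℕ) :
    Lifts L w F' (r • γ) (r • t) (a ^ r) := by
  induction r with
  | zero =>
    rw [zero_smul, zero_smul, pow_zero]
    exact one
  | succ r ih =>
    rw [succ_nsmul, succ_nsmul, pow_succ]
    exact ih.mul' ha

/-- Shifting by a `K'`-monomial. -/
lemma shift {γ γ' : GV} {t t' : (piN w).ker} {a : A} (h : Lifts L w F' γ t a)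
    (hj : (L.m : ℤ) ∣ (ofLex γ').1 - (ofLex γ).1) (hk : (L.m : ℤ) ∣ kG t'.1 - kG t.1) :
    Lifts L w F' γ' t' a := by
  obtain ⟨x, hx, hxL⟩ := h
  obtain ⟨l, -, hl⟩ := hxL.shift γ' t' hj hk
  exact ⟨_, F'.mul_mem (F'.algebraMap_mem l) hx, hl⟩

end Lifts

variable (L w F')

/-- The `K`-subalgebra of the elements of `A` lifted at value `0`. -/
def lift0 : Subalgebra K A where
  carrier := {a | Lifts L w F' 0 0 a}
  mul_mem' := by
    intro a b ha hb
    have h := Lifts.mul' ha hb
    rwa [add_zero, add_zero] at h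
  add_mem' := by
    intro a b ha hb
    exact Lifts.add ha hb
  algebraMap_mem' := fun c => Lifts.algebraMap_K c

variable {L w F'}

lemma mem_lift0 {a : A} : a ∈ lift0 L w F' ↔ Lifts L w F' 0 0 a := Iff.rfl

/-- The Kummer step: `K[β, y₀^m]` and `K[β,y₀]` coincide. -/
theorem adjoin_le_of_pow (hC : ∀ a : A, (∀ x, a * x = x * a) → ∃ c : K, a = algebraMap K A c)
    {N : ℕ} (hN : finrank K A = N ^ 2) {m : ℕ} (hm : m.Prime) (hmN : ¬ m ∣ N) {ζ : K}
    (hζ : IsPrimitiveRoot ζ m) {β y₀ : A} (hcomm : β * y₀ = y₀ * β) :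
    y₀ ∈ Algebra.adjoin K {β, y₀ ^ m} := by
  classical
  set E : Subalgebra K A := Algebra.adjoin K {β, y₀ ^ m} with hE
  have hgen : ∀ a ∈ ({β, y₀ ^ m} : Set A), ∀ b ∈ ({β, y₀ ^ m} : Set A), a * b = b * a := by
    have h1 : β * y₀ ^ m = y₀ ^ m * β := (Commute.pow_right (show Commute β y₀ from hcomm) m).eq
    rintro a (rfl | rfl) b (rfl | rfl)
    · rfl
    · exact h1
    · exact h1.symm
    · rfl
  have hcommE : ∀ x ∈ E, ∀ y ∈ E, x * y = y * x := by
    have := Algebra.isMulCommutative_adjoin K (s := ({β, y₀ ^ m} : Set A)) hgen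
    intro x hx y hy
    have := mul_comm' (⟨x, hx⟩ : E) ⟨y, hy⟩
    exact congrArg Subtype.val this
  have hw : ∀ e ∈ E, e * y₀ = y₀ * e := by
    intro e he
    have hle : E ≤ Subalgebra.centralizer K {y₀} := by
      rw [hE, Algebra.adjoin_le_iff]
      intro a ha
      rw [SetLike.mem_coe, Subalgebra.mem_centralizer_iff]
      intro g hg
      rw [Set.mem_singleton_iff] at hg
      rw [hg]
      rcases ha with ha | ha
      · rw [ha]
        exact hcomm.symm
      · rw [Set.mem_singleton_iff] at ha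
        rw [ha]
        exact ((Commute.refl y₀).pow_right m).eq
    have h := (Subalgebra.mem_centralizer_iff K).1 (hle he) y₀ rfl
    exact h.symm
  exact CentFactsB.mem_of_pow_mem hC hN E hcommE hm hmN hζ hw
    (Algebra.subset_adjoin (Set.mem_insert_of_mem _ rfl))

/-- **The lifts.** If `β` is lifted at value `0`, `y₀ ≠ 0` commuting with `β` at `(γ,t)`, then every
`f ∈ K[β,y₀]` is lifted at `(rγ, rt)`, for every `r`. -/
theorem lifts_adjoin (hC : ∀ a : A, (∀ x, a * x = x * a) → ∃ c : K, a = algebraMap K A c)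
    {N : ℕ} (hN : finrank K A = N ^ 2) (hmN : ¬ L.m ∣ N) {β y₀ : A} (hcomm : β * y₀ = y₀ * β)
    (hy₀ : y₀ ≠ 0) {γ : GV} {t : (piN w).ker} (hβ : Lifts L w F' 0 0 β)
    (hπ : Lifts L w F' γ t y₀) {f : A} (hf : f ∈ Algebra.adjoin K {β, y₀}) (r : ℕ) :
    Lifts L w F' (r • γ) (r • t) f := by
  -- `y₀^m` at value `0`
  have hm0 : Lifts L w F' 0 0 (y₀ ^ L.m) := by
    refine (hπ.pow L.m).shift ?_ ?_
    · rw [jV_zero, jV_nsmul, zero_sub]
      exact (Dvd.intro _ rfl).neg_right
    · rw [kG_nsmul, kG_zero_ker, zero_sub]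
      exact (Dvd.intro _ rfl).neg_right
  have hE : Algebra.adjoin K {β, y₀ ^ L.m} ≤ lift0 L w F' := by
    rw [Algebra.adjoin_le_iff]
    rintro a (rfl | ha)
    · exact hβ
    · rw [Set.mem_singleton_iff] at ha
      rw [ha]
      exact hm0
  have hy : y₀ ∈ Algebra.adjoin K {β, y₀ ^ L.m} :=
    adjoin_le_of_pow hC hN L.m_prime hmN L.ζ_prim hcomm
  have hV : Algebra.adjoin K {β, y₀} ≤ lift0 L w F' := by
    rw [Algebra.adjoin_le_iff]
    rintro a (rfl | ha)
    · exact hβ
    · rw [Set.mem_singleton_iff] at ha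
      rw [ha]
      exact hE hy
  have hy' : y₀ ∈ Algebra.adjoin K {β, y₀} := Algebra.subset_adjoin (Set.mem_insert_of_mem _ rfl)
  have hg : f * (y₀ ^ r)⁻¹ ∈ Algebra.adjoin K {β, y₀} :=
    Subalgebra.mul_mem _ hf (DoubleCent.inv_mem_subalgebra _ (Subalgebra.pow_mem _ hy' r))
  have h1 : Lifts L w F' 0 0 (f * (y₀ ^ r)⁻¹) := hV hg
  have h2 := h1.mul' (hπ.pow r)
  rw [zero_add, zero_add, mul_assoc, inv_mul_cancel₀ (pow_ne_zero r hy₀), mul_one] at h2
  exact h2

/-- The class of `γ`. -/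
noncomputable abbrev jC (γ : GV) : ZMod L.m := (((ofLex γ).1 : ℤ) : ZMod L.m)

/-- The `s`-class of `t`. -/
noncomputable abbrev kC (t : (piN w).ker) : ZMod L.m := ((kG t.1 : ℤ) : ZMod L.m)

lemma jV_eV (a : ZMod L.m) : (((ofLex (eV L.m a)).1 : ℤ) : ZMod L.m) = a := by
  show (((a.val : ℕ) : ℤ) : ZMod L.m) = a
  exact intCast_val L.m a

/-- **Leading spaces contain the lifts.** -/
theorem coSub_le_lead (hC : ∀ a : A, (∀ x, a * x = x * a) → ∃ c : K, a = algebraMap K A c)
    {N : ℕ} (hN : finrank K A = N ^ 2) (hmN : ¬ L.m ∣ N) {β y₀ : A} (hcomm : β * y₀ = y₀ * β)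
    (hy₀ : y₀ ≠ 0) {γ : GV} {t : (piN w).ker} (hβ : Lifts L w F' 0 0 β)
    (hπ : Lifts L w F' γ t y₀) (a : ZMod L.m) :
    coSub L w (Subalgebra.toSubmodule (Algebra.adjoin K {β, y₀})) (Tl (jC (L := L) γ) (kC (L := L) (w := w) t) a) ≤
      (gr L w).toLeadData.lead (eV L.m a) (Subalgebra.toSubmodule F') := by
  apply coSub_le
  intro k hk f hf
  obtain ⟨r, hr1, hr2⟩ := mem_Tl.1 hk
  have h1 := lifts_adjoin (F' := F') hC hN hmN hcomm hy₀ hβ hπ hf r.val
  obtain ⟨x, hx, hxL⟩ := h1.shift (γ' := eV L.m a) (t' := rK w k)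
    (by
      rw [← ZMod.intCast_zmod_eq_zero_iff_dvd, Int.cast_sub, jV_eV, jV_nsmul, Int.cast_mul, hr1]
      push_cast
      rw [ZMod.natCast_zmod_val, sub_self])
    (by
      rw [← ZMod.intCast_zmod_eq_zero_iff_dvd, Int.cast_sub, kG_rK, kG_nsmul, Int.cast_mul, hr2]
      push_cast
      rw [ZMod.natCast_zmod_val, sub_self])
  exact ⟨x, hx, hxL.1, hxL.2⟩

/-- **The lower bound**: `m [K[β,y₀]:K] ≤ dim_{K'} F'`. -/
theorem mul_finrank_le (hC : ∀ a : A, (∀ x, a * x = x * a) → ∃ c : K, a = algebraMap K A c)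
    {N : ℕ} (hN : finrank K A = N ^ 2) (hmN : ¬ L.m ∣ N) {β y₀ : A} (hcomm : β * y₀ = y₀ * β)
    (hy₀ : y₀ ≠ 0) {γ : GV} {t : (piN w).ker} (hβ : Lifts L w F' 0 0 β)
    (hπ : Lifts L w F' γ t y₀) (h0 : jC (L := L) γ ≠ 0 ∨ kC (L := L) (w := w) t ≠ 0) :
    L.m * finrank K (Subalgebra.toSubmodule (Algebra.adjoin K {β, y₀})) ≤
      finrank K' (Subalgebra.toSubmodule F') := by
  calc L.m * finrank K (Subalgebra.toSubmodule (Algebra.adjoin K {β, y₀}))
      = (∑ a : ZMod L.m, (Tl (jC (L := L) γ) (kC (L := L) (w := w) t) a).card) *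
          finrank K (Subalgebra.toSubmodule (Algebra.adjoin K {β, y₀})) := by
        rw [sum_card_Tl h0]
    _ = ∑ a : ZMod L.m, (Tl (jC (L := L) γ) (kC (L := L) (w := w) t) a).card *
          finrank K (Subalgebra.toSubmodule (Algebra.adjoin K {β, y₀})) := Finset.sum_mul _ _ _
    _ ≤ ∑ a : ZMod L.m, finrank (Kh L w)
          ((gr L w).toLeadData.lead (eV L.m a) (Subalgebra.toSubmodule F')) := by
        refine Finset.sum_le_sum fun a _ => ?_
        rw [← finrank_coSub (L := L) (w := w)]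
        exact Submodule.finrank_mono (coSub_le_lead hC hN hmN hcomm hy₀ hβ hπ a)
    _ = finrank K' (Subalgebra.toSubmodule F') := (gauss L w _).symm

/-- **H1**: under the class bound the leading spaces are exactly the lifts. -/
theorem lead_eq_coSub (hC : ∀ a : A, (∀ x, a * x = x * a) → ∃ c : K, a = algebraMap K A c)
    {N : ℕ} (hN : finrank K A = N ^ 2) (hmN : ¬ L.m ∣ N) {β y₀ : A} (hcomm : β * y₀ = y₀ * β)
    (hy₀ : y₀ ≠ 0) {γ : GV} {t : (piN w).ker} (hβ : Lifts L w F' 0 0 β)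
    (hπ : Lifts L w F' γ t y₀) (h0 : jC (L := L) γ ≠ 0 ∨ kC (L := L) (w := w) t ≠ 0)
    (hdim : finrank K' (Subalgebra.toSubmodule F') ≤
      L.m * finrank K (Subalgebra.toSubmodule (Algebra.adjoin K {β, y₀}))) (a : ZMod L.m) :
    (gr L w).toLeadData.lead (eV L.m a) (Subalgebra.toSubmodule F') =
      coSub L w (Subalgebra.toSubmodule (Algebra.adjoin K {β, y₀}))
        (Tl (jC (L := L) γ) (kC (L := L) (w := w) t) a) := by
  refine (TestCore.eq_of_le_of_sum_le
    (T := fun a => coSub L w (Subalgebra.toSubmodule (Algebra.adjoin K {β, y₀}))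
        (Tl (jC (L := L) γ) (kC (L := L) (w := w) t) a))
    (L := fun a => (gr L w).toLeadData.lead (eV L.m a) (Subalgebra.toSubmodule F'))
    (fun a => coSub_le_lead hC hN hmN hcomm hy₀ hβ hπ a) ?_ a).symm
  rw [← gauss L w (Subalgebra.toSubmodule F')]
  simp only [finrank_coSub]
  rw [← Finset.sum_mul, sum_card_Tl h0]
  exact hdim

/-! ### Taylor -/

/-- `H ≡ β` at first order: `H^n - β^n` has lead `n β^{n-1} y`. -/
theorem hasL_pow {H : R} {β y : A} {γ : GV} {t : (piN w).ker} (hcomm : β * y = y * β)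
    (hH : HasL L w H 0 0 β) (hW : HasL L w (H - L.lev.inc β) γ t y) (n : ℕ) :
    HasL L w (H ^ n - L.lev.inc (β ^ n)) γ t ((n : K) • (β ^ (n - 1) * y)) := by
  induction n with
  | zero =>
    simp only [pow_zero, map_one, sub_self, Nat.cast_zero, zero_smul]
    refine ⟨?_, ?_⟩
    · rw [(gr L w).val_zero]
      exact le_top
    · rw [map_zero, mh_zero_right]
  | succ n ih =>
    have e : H ^ (n + 1) - L.lev.inc (β ^ (n + 1)) =
        (H ^ n - L.lev.inc (β ^ n)) * H + L.lev.inc (β ^ n) * (H - L.lev.inc β) := by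
      rw [pow_succ H, pow_succ β, map_mul]
      noncomm_ring
    have h1 := ih.mul hH
    have h2 := (HasL.inc (L := L) (w := w) (β ^ n)).mul hW
    rw [add_zero, add_zero, kG_zero_ker, mul_zero, zpow_zero, one_smul] at h1
    rw [zero_add, zero_add, jV_zero, zero_mul, zpow_zero, one_smul] at h2
    rw [e]
    refine (h1.add h2).of_eq ?_
    have hcp : (n : K) • (β ^ (n - 1) * y) * β = (n : K) • (β ^ n * y) := by
      rcases Nat.eq_zero_or_pos n with h0 | hpos
      · subst h0
        simp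
      · obtain ⟨k, rfl⟩ : ∃ k, n = k + 1 := ⟨n - 1, by omega⟩
        simp only [Nat.add_sub_cancel]
        rw [smul_mul_assoc, mul_assoc, ← hcomm, ← mul_assoc, ← pow_succ]
    rw [hcp, Nat.add_sub_cancel]
    push_cast
    rw [add_smul, one_smul]

/-- **Taylor**: `H ≡ β + W`: `P(H) - P(β)` has lead `P'(β) y` for `P ∈ K[X]`. -/
theorem hasL_aeval_sub {H : R} {β y : A} {γ : GV} {t : (piN w).ker} (hcomm : β * y = y * β)
    (hH : HasL L w H 0 0 β) (hW : HasL L w (H - L.lev.inc β) γ t y) (P : K[X]) :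
    HasL L w (aeval H P - L.lev.inc (aeval β P)) γ t (aeval β (derivative P) * y) := by
  induction P using Polynomial.induction_on' with
  | add p q hp hq =>
    have e : aeval H (p + q) - L.lev.inc (aeval β (p + q)) =
        (aeval H p - L.lev.inc (aeval β p)) + (aeval H q - L.lev.inc (aeval β q)) := by
      simp only [map_add]
      abel
    rw [e]
    refine (hp.add hq).of_eq ?_
    simp only [map_add, add_mul]
  | monomial n c =>
    have h := hasL_pow hcomm hH hW n
    have h2 := (HasL.algebraMap_K (L := L) (w := w) c).mul h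
    rw [zero_add, zero_add, jV_zero, zero_mul, zpow_zero, one_smul] at h2
    have e : aeval H (monomial n c) - L.lev.inc (aeval β (monomial n c)) =
        algebraMap K R c * (H ^ n - L.lev.inc (β ^ n)) := by
      simp only [aeval_monomial, map_mul, AlgHom.commutes, mul_sub]
    rw [e]
    refine h2.of_eq ?_
    rw [derivative_monomial, aeval_monomial, map_mul, map_natCast, Algebra.smul_def, map_natCast]
    simp only [mul_assoc]

/-- The value `0` part: from a positive deviation. -/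
theorem hasL_of_sub {H : R} {β y : A} {γ : GV} {t : (piN w).ker} (hγ : 0 < γ)
    (hW : HasL L w (H - L.lev.inc β) γ t y) : HasL L w H 0 0 β := by
  have h1 : ((0 : GV) : WithTop GV) < (gr L w).val (H - L.lev.inc β) :=
    lt_of_lt_of_le (WithTop.coe_lt_coe.2 hγ) hW.1
  have h2 := (HasL.inc (L := L) (w := w) β).add_lt h1
  rwa [add_sub_cancel] at h2

lemma aeval_conj {g : R} (hg : g ≠ 0) (x : R) (P : K[X]) :
    aeval (g * x * g⁻¹) P = g * aeval x P * g⁻¹ := by
  induction P using Polynomial.induction_on' with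
  | add p q hp hq => simp only [map_add, hp, hq, mul_add, add_mul]
  | monomial n c =>
    have h := Units.conj_pow (Units.mk0 g hg) x n
    simp only [Units.val_mk0, Units.val_inv_eq_inv_val] at h
    simp only [aeval_monomial]
    rw [h, ← mul_assoc, ← mul_assoc, Algebra.commutes, mul_assoc g]

/-- **Frame**: `H g = g (β + E')`: `P(H)` for `P(β) = 0` has lead `P'(β) y`. -/
theorem hasL_aeval_frame {H g E : R} {β y : A} {γ : GV} {t : (piN w).ker} (hγ : 0 < γ)
    (hcomm : β * y = y * β) (hg : HasL L w g 0 0 1) (hE : H * g - g * L.lev.inc β = E)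
    (hEL : HasL L w E γ t y) (P : K[X]) (hP : aeval β P = 0) :
    HasL L w (aeval H P) γ t (aeval β (derivative P) * y) := by
  have hg0 : g ≠ 0 := by
    rintro rfl
    have h1 := hg.2
    rw [map_zero] at h1
    have h2 := congrArg (fun ξ : Rh L w => ξ.1.coeff 0) h1
    have h3 : (mh L w 0 (1 : A)).1.coeff 0 = 1 := by
      rw [mh_coe, coeff_mono]
      simp
    have h4 : (0 : Rh L w).1.coeff 0 = (mh L w 0 (1 : A)).1.coeff 0 := h2
    rw [h3] at h4
    exact zero_ne_one h4
  have hgi := HasL.inv hg one_ne_zero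
  rw [inv_one] at hgi
  set H' : R := g⁻¹ * H * g with hH'
  have e1 : H' - L.lev.inc β = g⁻¹ * E := by
    rw [hH', ← hE, mul_sub, ← mul_assoc, ← mul_assoc, inv_mul_cancel₀ hg0, one_mul]
  have hW : HasL L w (H' - L.lev.inc β) γ t y := by
    rw [e1]
    have h := hgi.mul hEL
    rw [zero_add, zero_add, jV_zero, zero_mul, zpow_zero, one_smul, one_mul] at h
    exact h
  have hH0 := hasL_of_sub hγ hW
  have h1 := hasL_aeval_sub hcomm hH0 hW P
  rw [hP, map_zero, sub_zero] at h1
  have h2 := h1.conj hg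
  have e2 : g * aeval H' P * g⁻¹ = aeval H P := by
    have hu : g * H' * g⁻¹ = H := by
      rw [hH']
      simp only [mul_assoc, mul_inv_cancel₀ hg0, mul_one, mul_inv_cancel_left₀ hg0]
    rw [← aeval_conj hg0, hu]
  rwa [e2] at h2

lemma aeval_mem_of_mem {H : R} (hH : H ∈ F') (P : K[X]) : aeval H P ∈ F' := by
  induction P using Polynomial.induction_on' with
  | add p q hp hq =>
    rw [map_add]
    exact F'.add_mem hp hq
  | monomial n c =>
    rw [aeval_monomial, IsScalarTower.algebraMap_apply K K' R]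
    exact F'.mul_mem (F'.algebraMap_mem _) (F'.pow_mem hH n)

/-- The derivative of a separable polynomial at a root. -/
lemma aeval_derivative_ne {P : K[X]} (hP : P.Separable) {β : A} (hβ : aeval β P = 0) :
    aeval β (derivative P) ≠ 0 := by
  intro h0
  obtain ⟨u, v, huv⟩ := hP
  have h1 := congrArg (aeval β) huv
  rw [map_add, map_mul, map_mul, hβ, h0, mul_zero, mul_zero, add_zero, map_one] at h1
  exact zero_ne_one h1

/-- `K[β, u y] = K[β, y]` for a nonzero `u ∈ K[β]`. -/
lemma adjoin_mul_eq {β y u : A} (hu : u ∈ Algebra.adjoin K {β}) (hu0 : u ≠ 0) :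
    Algebra.adjoin K {β, u * y} = Algebra.adjoin K {β, y} := by
  have hb1 : β ∈ Algebra.adjoin K {β, u * y} := Algebra.subset_adjoin (Set.mem_insert _ _)
  have hb2 : β ∈ Algebra.adjoin K {β, y} := Algebra.subset_adjoin (Set.mem_insert _ _)
  have hu1 : u ∈ Algebra.adjoin K {β, u * y} :=
    Algebra.adjoin_mono (Set.singleton_subset_iff.2 (Set.mem_insert _ _)) hu
  have hu2 : u ∈ Algebra.adjoin K {β, y} :=
    Algebra.adjoin_mono (Set.singleton_subset_iff.2 (Set.mem_insert _ _)) hu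
  apply le_antisymm
  · rw [Algebra.adjoin_le_iff]
    rintro a (rfl | ha)
    · exact hb2
    · rw [Set.mem_singleton_iff] at ha
      rw [ha]
      exact Subalgebra.mul_mem _ hu2 (Algebra.subset_adjoin (Set.mem_insert_of_mem _ rfl))
  · rw [Algebra.adjoin_le_iff]
    rintro a (rfl | ha)
    · exact hb1
    · rw [Set.mem_singleton_iff] at ha
      rw [ha]
      have h : (u⁻¹ * (u * y)) ∈ Algebra.adjoin K {β, u * y} :=
        Subalgebra.mul_mem _ (DoubleCent.inv_mem_subalgebra _ hu1)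
          (Algebra.subset_adjoin (Set.mem_insert_of_mem _ rfl))
      rwa [inv_mul_cancel_left₀ hu0] at h

/-- The data of the first deviation of `H` in a frame: `H g = g β + E`, `g ≡ 1`, `E` of lead `y e_t`
at `γ > 0`, `y` commuting with `β`. -/
structure Dev (L : Lv K A K' R τ) (w : ℕ) (H : R) (β y : A) (γ : GV) (t : (piN w).ker) : Prop where
  /-- the frame -/
  fr : ∃ g : R, HasL L w g 0 0 1 ∧ HasL L w (H * g - g * L.lev.inc β) γ t y
  pos : 0 < γ
  comm : β * y = y * β
  ne : y ≠ 0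
  sep : (minpoly K β).Separable
  cl : jC (L := L) γ ≠ 0 ∨ kC (L := L) (w := w) t ≠ 0

namespace Dev

variable {H : R} {β y : A} {γ : GV} {t : (piN w).ker}

/-- `H` has lead `β` at value `0`. -/
theorem lead_H (hD : Dev L w H β y γ t) : HasL L w H 0 0 β := by
  obtain ⟨g, hg, hE⟩ := hD.fr
  have hg0 : g ≠ 0 := by
    rintro rfl
    have h1 := hg.2
    rw [map_zero] at h1
    have h2 := congrArg (fun ξ : Rh L w => ξ.1.coeff 0) h1
    have h3 : (mh L w 0 (1 : A)).1.coeff 0 = 1 := by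
      rw [mh_coe, coeff_mono]
      simp
    have h4 : (0 : Rh L w).1.coeff 0 = (mh L w 0 (1 : A)).1.coeff 0 := h2
    rw [h3] at h4
    exact zero_ne_one h4
  have hgi := HasL.inv hg one_ne_zero
  rw [inv_one] at hgi
  have e1 : H = (g * L.lev.inc β + (H * g - g * L.lev.inc β)) * g⁻¹ := by
    rw [add_sub_cancel, mul_assoc, mul_inv_cancel₀ hg0, mul_one]
  have h1 := hg.mul (HasL.inc (L := L) (w := w) β)
  rw [zero_add, zero_add, jV_zero, zero_mul, zpow_zero, one_smul, one_mul] at h1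
  have h2 := h1.add_lt (lt_of_lt_of_le (WithTop.coe_lt_coe.2 hD.pos) hE.1)
  have h3 := h2.mul hgi
  rw [zero_add, zero_add, kG_zero_ker, mul_zero, zpow_zero, one_smul, mul_one, ← e1] at h3
  exact h3

/-- `π = P(H)` for `P = minpoly β`. -/
theorem lead_pi (hD : Dev L w H β y γ t) :
    HasL L w (aeval H (minpoly K β)) γ t (aeval β (derivative (minpoly K β)) * y) := by
  obtain ⟨g, hg, hE⟩ := hD.fr
  exact hasL_aeval_frame hD.pos hD.comm hg rfl hE _ (minpoly.aeval K β)

/-- The element `y₀ = P'(β) y` is nonzero. -/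
theorem y0_ne (hD : Dev L w H β y γ t) : aeval β (derivative (minpoly K β)) * y ≠ 0 :=
  mul_ne_zero (aeval_derivative_ne hD.sep (minpoly.aeval K β)) hD.ne

theorem y0_comm (hD : Dev L w H β y γ t) :
    β * (aeval β (derivative (minpoly K β)) * y) = (aeval β (derivative (minpoly K β)) * y) * β := by
  have h : Commute β (aeval β (derivative (minpoly K β))) := by
    show β * _ = _ * β
    induction derivative (minpoly K β) using Polynomial.induction_on' with
    | add p q hp hq => simp only [map_add, mul_add, add_mul, hp, hq]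
    | monomial n c =>
      simp only [aeval_monomial]
      rw [← mul_assoc, ← Algebra.commutes, mul_assoc, mul_assoc, ← pow_succ', pow_succ]
  rw [← mul_assoc, h.eq, mul_assoc, hD.comm, mul_assoc]

lemma adjoin_y0 (hD : Dev L w H β y γ t) :
    Algebra.adjoin K {β, aeval β (derivative (minpoly K β)) * y} = Algebra.adjoin K {β, y} :=
  adjoin_mul_eq (Polynomial.aeval_mem_adjoin_singleton K β)
    (aeval_derivative_ne hD.sep (minpoly.aeval K β))

variable (hC : ∀ a : A, (∀ x, a * x = x * a) → ∃ c : K, a = algebraMap K A c)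
  {N : ℕ} (hN : finrank K A = N ^ 2) (hmN : ¬ L.m ∣ N)

include hC hN hmN

/-- **F⁰-lifts**: for `f ∈ K[β,y]`: `f e^r` is the lead of an element of `F' ∋ H`. -/
theorem lifts (hD : Dev L w H β y γ t) (hH : H ∈ F') {f : A} (hf : f ∈ Algebra.adjoin K {β, y})
    (r : ℕ) : Lifts L w F' (r • γ) (r • t) f := by
  have h1 : Lifts L w F' γ t (aeval β (derivative (minpoly K β)) * y) :=
    ⟨_, aeval_mem_of_mem hH _, hD.lead_pi⟩
  exact lifts_adjoin hC hN hmN hD.y0_comm hD.y0_ne ⟨H, hH, hD.lead_H⟩ h1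
    (by rwa [hD.adjoin_y0]) r

/-- **Leading spaces contain the lifts.** -/
theorem coSub_le (hD : Dev L w H β y γ t) (hH : H ∈ F') (a : ZMod L.m) :
    coSub L w (Subalgebra.toSubmodule (Algebra.adjoin K {β, y}))
        (Tl (jC (L := L) γ) (kC (L := L) (w := w) t) a) ≤
      (gr L w).toLeadData.lead (eV L.m a) (Subalgebra.toSubmodule F') := by
  have h1 : Lifts L w F' γ t (aeval β (derivative (minpoly K β)) * y) :=
    ⟨_, aeval_mem_of_mem hH _, hD.lead_pi⟩
  have h2 := coSub_le_lead hC hN hmN hD.y0_comm hD.y0_ne ⟨H, hH, hD.lead_H⟩ h1 a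
  rwa [hD.adjoin_y0] at h2

/-- **The lower bound** `m [K[β,y]:K] ≤ dim_K' F'`. -/
theorem mul_le (hD : Dev L w H β y γ t) (hH : H ∈ F') :
    L.m * finrank K (Subalgebra.toSubmodule (Algebra.adjoin K {β, y})) ≤
      finrank K' (Subalgebra.toSubmodule F') := by
  have h1 : Lifts L w F' γ t (aeval β (derivative (minpoly K β)) * y) :=
    ⟨_, aeval_mem_of_mem hH _, hD.lead_pi⟩
  have h2 := mul_finrank_le hC hN hmN hD.y0_comm hD.y0_ne ⟨H, hH, hD.lead_H⟩ h1 hD.cl
  rwa [hD.adjoin_y0] at h2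

/-- **H1**: the leading spaces under the class bound. -/
theorem lead_eq (hD : Dev L w H β y γ t) (hH : H ∈ F')
    (hdim : finrank K' (Subalgebra.toSubmodule F') ≤
      L.m * finrank K (Subalgebra.toSubmodule (Algebra.adjoin K {β, y}))) (a : ZMod L.m) :
    (gr L w).toLeadData.lead (eV L.m a) (Subalgebra.toSubmodule F') =
      coSub L w (Subalgebra.toSubmodule (Algebra.adjoin K {β, y}))
        (Tl (jC (L := L) γ) (kC (L := L) (w := w) t) a) := by
  have h1 : Lifts L w F' γ t (aeval β (derivative (minpoly K β)) * y) :=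
    ⟨_, aeval_mem_of_mem hH _, hD.lead_pi⟩
  have h2 := lead_eq_coSub (F' := F') hC hN hmN hD.y0_comm hD.y0_ne ⟨H, hH, hD.lead_H⟩ h1 hD.cl
    (by rwa [hD.adjoin_y0]) a
  rwa [hD.adjoin_y0] at h2

end Dev

end Crest.Agent.Kurosh.FLift
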