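import Crest.Agent.Kurosh.KeyUp

/-!
# S0270 module M8a: the Key Lemma at the level of `A((s))`

`E` is a commutative subalgebra of `A((s))` over `𝕂 = K((s^m))` of small dimension, containing `β`
and the norm `∏_r θ^r(W)` of `W = y s^K'' + W₁` (`m ∤ j`) or `W` itself (`m ∣ j`).  Then the
projection of the coefficients of `W₁` to `C(z₀)` lies in `K[z₀]`, `z₀ = β + λ y^m`.
-/

set_option autoImplicit false
set_option linter.unusedSectionVars false

namespace Crest.Agent.Kurosh

namespace KeyHahn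

open THS Polynomial
open _root_.Crest.Agent.Kurosh.Valued

variable {K : Type*} [Field K] {A : Type*} [DivisionRing A] [Algebra K A]

variable {m : ℕ}

/-- The embedding of scalars is compatible with `iota`. -/
theorem algebraMap_ofK (c : K) :
    algebraMap (Scal A (lauS K m)) (Lau K A) (Scal.ofK (lauS K m) c) = iota (algebraMap K A c) := rfl

theorem iota_eq_mono (a : A) : (iota a : Lau K A) = mono 0 a := rfl

theorem iota_mul_sV_pow (a : A) (r : ℕ) : (iota a * sV ^ r : Lau K A) = mono (r : ℤ) a := by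
  rw [sV_pow, iota_eq_mono, mono_mul_mono, triv_apply, one_smul, mul_one, zero_add]

/-- Coefficient of a scalar multiple of a monomial. -/
theorem coeff_scal_mul_mono (c : Scal A (lauS K m)) (r : ℤ) (a : A) (N : ℤ) :
    (c • (mono r a : Lau K A)).coeff N = c.1.coeff (N - r) * a := by
  rw [Scal.smul_def]
  have h := coeff_mul_mono r a c.1 (N - r)
  rw [sub_add_cancel] at h
  rw [h, triv_apply, one_smul]

/-- **Independence over `𝕂`**: a `K`-independent family of coefficients stays independent over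
`K((s^m))` after multiplication by `s^r`, `r < m`. -/
theorem lau_li {d : ℕ} {a : Fin d → A} (ha : LinearIndependent K a) :
    LinearIndependent (Scal A (lauS K m))
      (fun p : Fin d × Fin m => (iota (a p.1) * sV ^ (p.2 : ℕ) : Lau K A)) := by
  classical
  rw [Fintype.linearIndependent_iff]
  intro g hg p₀
  apply Subtype.ext
  ext n
  show (g p₀).1.coeff n = 0
  by_cases hn : (m : ℤ) ∣ n
  swap
  · by_contra h
    exact hn (mem_lauS.1 ((g p₀).2.1 n h))
  -- the coefficient at `n + r₀`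
  have h1 : (∑ p, g p • (iota (a p.1) * sV ^ (p.2 : ℕ)) : Lau K A).coeff
      (n + ((p₀.2 : ℕ) : ℤ)) = 0 := by
    rw [hg]
    rfl
  have hsum : ∀ (s : Finset (Fin d × Fin m)) (F : Fin d × Fin m → Lau K A) (N : ℤ),
      (∑ p ∈ s, F p).coeff N = ∑ p ∈ s, (F p).coeff N := by
    intro s F N
    induction s using Finset.induction_on with
    | empty => rfl
    | insert b s hb ih => rw [Finset.sum_insert hb, Finset.sum_insert hb, THS.coeff_add, ih]
  rw [hsum] at h1
  have h1' : ∑ p : Fin d × Fin m, (g p).1.coeff (n + ((p₀.2 : ℕ) : ℤ) - ((p.2 : ℕ) : ℤ)) * a p.1 = 0 := by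
    rw [← h1]
    refine Finset.sum_congr rfl fun p _ => ?_
    rw [iota_mul_sV_pow, coeff_scal_mul_mono]
  rw [Fintype.sum_prod_type] at h1'
  have h2 : ∀ i : Fin d, ∑ r : Fin m, (g (i, r)).1.coeff (n + ((p₀.2 : ℕ) : ℤ) - ((r : ℕ) : ℤ)) * a i
      = (g (i, p₀.2)).1.coeff n * a i := by
    intro i
    rw [Finset.sum_eq_single p₀.2]
    · rw [add_sub_cancel_right]
    · intro r _ hr
      have h3 : (g (i, r)).1.coeff (n + ((p₀.2 : ℕ) : ℤ) - ((r : ℕ) : ℤ)) = 0 := by
        by_contra h4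
        have h5 := mem_lauS.1 ((g (i, r)).2.1 _ h4)
        have h6 : (m : ℤ) ∣ ((p₀.2 : ℕ) : ℤ) - ((r : ℕ) : ℤ) := by
          have := dvd_sub h5 hn
          have e : n + ((p₀.2 : ℕ) : ℤ) - ((r : ℕ) : ℤ) - n = ((p₀.2 : ℕ) : ℤ) - ((r : ℕ) : ℤ) := by
            ring
          rwa [e] at this
        apply hr
        have hr1 := r.2
        have hr2 := p₀.2.2
        obtain ⟨c, hc⟩ := h6
        have hc0 : c = 0 := by
          by_contra hne
          have h7 : (m : ℤ) ≤ |((p₀.2 : ℕ) : ℤ) - ((r : ℕ) : ℤ)| := by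
            rw [hc, abs_mul, abs_of_nonneg (Int.natCast_nonneg m)]
            have : (1 : ℤ) ≤ |c| := Int.one_le_abs hne
            nlinarith [Int.natCast_nonneg m]
          have h8 : |((p₀.2 : ℕ) : ℤ) - ((r : ℕ) : ℤ)| < m := by
            rw [abs_lt]
            constructor <;> omega
          omega
        rw [hc0, mul_zero] at hc
        ext
        omega
      rw [h3, zero_mul]
    · intro h
      exact absurd (Finset.mem_univ _) h
  choose κ hκ using fun i : Fin d =>
    Algebra.mem_bot.1 ((g (i, p₀.2)).2.2 n)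
  have h3 : ∑ i, κ i • a i = 0 := by
    rw [← h1']
    refine Finset.sum_congr rfl fun i _ => ?_
    rw [h2 i, Algebra.smul_def, hκ i]
  have h4 := Fintype.linearIndependent_iff.1 ha κ h3 p₀.1
  have h5 := hκ p₀.1
  rw [h4, map_zero] at h5
  exact h5.symm

/-- `a ∈ K[z₀]` gives `iota a ∈ 𝕂[iota z₀]`. -/
theorem iota_mem_adjoin {z₀ a : A} {S : Set (Lau K A)} (hS : iota z₀ ∈ S)
    (ha : a ∈ Algebra.adjoin K {z₀}) : (iota a : Lau K A) ∈ Algebra.adjoin (Scal A (lauS K m)) S := by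
  induction ha using Algebra.adjoin_induction with
  | mem a ha =>
    rw [Set.mem_singleton_iff.1 ha]
    exact Algebra.subset_adjoin hS
  | algebraMap r =>
    rw [← algebraMap_ofK (m := m)]
    exact Subalgebra.algebraMap_mem _ _
  | add a b _ _ h1 h2 =>
    rw [map_add]
    exact Subalgebra.add_mem _ h1 h2
  | mul a b _ _ h1 h2 =>
    rw [map_mul]
    exact Subalgebra.mul_mem _ h1 h2

/-- Generic: `n` independent elements in a subalgebra. -/
theorem card_le_finrank_of_li {F R ι : Type*} [Field F] [Ring R] [Algebra F R] [Fintype ι]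
    [FiniteDimensional F R] {v : ι → R} (hv : LinearIndependent F v) (B : Subalgebra F R)
    (hB : ∀ i, v i ∈ B) : Fintype.card ι ≤ Module.finrank F B := by
  let f : ι → B := fun i => ⟨v i, hB i⟩
  have hf : LinearIndependent F f := by
    apply LinearIndependent.of_comp B.val.toLinearMap
    exact hv
  exact hf.fintype_card_le_finrank

/-- A basis of `K[z₀]`, as an independent family in `A`. -/
theorem exists_basis_adjoin [FiniteDimensional K A] (z₀ : A) :
    ∃ a : Fin (Module.finrank K (Algebra.adjoin K {z₀})) → A, LinearIndependent K a ∧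
      ∀ i, a i ∈ Algebra.adjoin K {z₀} := by
  have : FiniteDimensional K (Algebra.adjoin K {z₀}) :=
    FiniteDimensional.finiteDimensional_submodule (Subalgebra.toSubmodule (Algebra.adjoin K {z₀}))
  let b := Module.finBasis K (Algebra.adjoin K {z₀})
  exact ⟨fun i => (b i : A), b.linearIndependent.map' (Algebra.adjoin K {z₀}).val.toLinearMap
      (LinearMap.ker_eq_bot.2 Subtype.val_injective), fun i => (b i).2⟩

/-- The dimension of `𝕂[z₀]` is at least that of `K[z₀]`. -/
theorem finrank_adjoin_le [FiniteDimensional K A] (hm : 0 < m) (z₀ : A) :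
    Module.finrank K (Algebra.adjoin K {z₀}) ≤
      Module.finrank (Scal A (lauS K m)) (Algebra.adjoin (Scal A (lauS K m)) {(iota z₀ : Lau K A)}) := by
  have := lau_finite (K := K) (A := A) hm
  obtain ⟨a, ha, hmem⟩ := exists_basis_adjoin (K := K) z₀
  have hli := lau_li (m := m) ha
  have hli2 : LinearIndependent (Scal A (lauS K m))
      (fun i : Fin (Module.finrank K (Algebra.adjoin K {z₀})) => (iota (a i) : Lau K A)) := by
    have h3 := hli.comp (fun i => (i, (⟨0, hm⟩ : Fin m))) (fun x y h => (Prod.ext_iff.1 h).1)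
    convert h3 using 2
    simp
  have h := card_le_finrank_of_li hli2 (Algebra.adjoin (Scal A (lauS K m)) {(iota z₀ : Lau K A)})
    (fun i => iota_mem_adjoin (Set.mem_singleton _) (hmem i))
  rwa [Fintype.card_fin] at h

/-- The dimension of `𝕂[z₀, s]` is at least `m` times that of `K[z₀]`. -/
theorem finrank_adjoin_s_le [FiniteDimensional K A] (hm : 0 < m) (z₀ : A) :
    Module.finrank K (Algebra.adjoin K {z₀}) * m ≤
      Module.finrank (Scal A (lauS K m))
        (Algebra.adjoin (Scal A (lauS K m)) ({(iota z₀ : Lau K A), (sV : Lau K A)} : Set (Lau K A))) := by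
  have := lau_finite (K := K) (A := A) hm
  obtain ⟨a, ha, hmem⟩ := exists_basis_adjoin (K := K) z₀
  have hli := lau_li (m := m) ha
  have h := card_le_finrank_of_li hli
    (Algebra.adjoin (Scal A (lauS K m)) ({(iota z₀ : Lau K A), (sV : Lau K A)} : Set (Lau K A)))
    (fun p => Subalgebra.mul_mem _ (iota_mem_adjoin (Set.mem_insert _ _) (hmem p.1))
      (Subalgebra.pow_mem _ (Algebra.subset_adjoin
        (Set.mem_insert_of_mem _ (Set.mem_singleton _))) _))
  rwa [Fintype.card_prod, Fintype.card_fin, Fintype.card_fin] at h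

/-- Elements of `𝕂[z₀, s]` have coefficients in `K[z₀]`. -/
theorem coeff_mem_of_mem_adjoin {z₀ : A} {S : Set (Lau K A)}
    (hS : ∀ x ∈ S, ∀ q, x.coeff q ∈ Algebra.adjoin K {z₀}) {g : Lau K A}
    (hg : g ∈ Algebra.adjoin (Scal A (lauS K m)) S) (q : ℤ) :
    g.coeff q ∈ Algebra.adjoin K {z₀} := by
  have key : IsIn (⊤ : AddSubgroup ℤ) (Algebra.adjoin K {z₀}) g := by
    induction hg using Algebra.adjoin_induction with
    | mem x hx => exact ⟨fun _ _ => AddSubgroup.mem_top _, hS x hx⟩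
    | algebraMap c =>
      refine ⟨fun _ _ => AddSubgroup.mem_top _, fun p => ?_⟩
      obtain ⟨κ, hκ⟩ := Algebra.mem_bot.1 (c.2.2 p)
      show c.1.coeff p ∈ _
      rw [← hκ]
      exact Subalgebra.algebraMap_mem _ _
    | add a b _ _ h1 h2 => exact h1.add h2
    | mul a b _ _ h1 h2 => exact h1.mul h2
  exact key.2 q

theorem coeff_iota_mem {z₀ a : A} (ha : a ∈ Algebra.adjoin K {z₀}) (q : ℤ) :
    (iota a : Lau K A).coeff q ∈ Algebra.adjoin K {z₀} := by
  classical
  rw [coeff_iota]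
  split_ifs
  · exact ha
  · exact Subalgebra.zero_mem _

theorem coeff_sV_mem {z₀ : A} (q : ℤ) :
    (sV : Lau K A).coeff q ∈ Algebra.adjoin K {z₀} := by
  classical
  rw [show (sV : Lau K A).coeff q = (mono 1 1 : Lau K A).coeff q from rfl, coeff_mono]
  split_ifs
  · exact Subalgebra.one_mem _
  · exact Subalgebra.zero_mem _

/-- The value of a nonzero constant. -/
theorem w_iota {a : A} (ha : a ≠ 0) : w K A (iota a : Lau K A) = 0 := by
  classical
  have h0 : (iota a : Lau K A) ≠ 0 := by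
    intro h
    exact ha ((map_eq_zero _).1 h)
  rw [w, val_of_ne h0]
  have h1 : (iota a : Lau K A).ord = 0 := by
    have h2 := ord_mem h0
    by_contra hne
    apply mem_supp.1 h2
    rw [coeff_iota, if_neg hne]
  rw [h1]
  rfl

theorem w_iota_nonneg (a : A) : 0 ≤ w K A (iota a : Lau K A) := by
  by_cases ha : a = 0
  · rw [ha, map_zero, (w K A).map_zero]
    exact le_top
  · rw [w_iota ha]

/-- `aeval` of the base change of a polynomial. -/
theorem aeval_map_ofK (p : K[X]) (a : A) :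
    aeval (iota a : Lau K A) (p.map (Scal.ofK (A := A) (lauS K m))) = iota (aeval a p) := by
  rw [aeval_def, eval₂_map, aeval_def, hom_eval₂]
  rfl

theorem integral_map_ofK (p : K[X]) :
    Inertial.Integral (w K A) (p.map (Scal.ofK (A := A) (lauS K m))) := by
  intro i
  rw [coeff_map, algebraMap_ofK]
  exact w_iota_nonneg _

/-- A separable polynomial has invertible derivative at a root. -/
theorem aeval_derivative_ne_of_separable {p : K[X]} (hp : p.Separable) {a : A} (ha : aeval a p = 0) :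
    aeval a (derivative p) ≠ 0 := by
  intro h
  obtain ⟨u, v, huv⟩ := hp
  have h1 := congrArg (aeval a) huv
  rw [map_add, map_mul, map_mul, ha, h, mul_zero, mul_zero, add_zero, map_one] at h1
  exact zero_ne_one h1

/-! ### The first order analysis -/

section KeyThm

open KeyCore

theorem smul_K_mem (E : Subalgebra (Scal A (lauS K m)) (Lau K A)) (u : K) {x : Lau K A}
    (hx : x ∈ E) : u • x ∈ E := by
  have h : u • x = Scal.ofK (A := A) (lauS K m) u • x := by
    rw [Scal.smul_def]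
    exact smul_eq_mono_mul u x
  rw [h]
  exact E.smul_mem hx _

/-- `s^a` for `m ∣ a`, as a scalar. -/
noncomputable def sS (a : ℤ) (ha : (m : ℤ) ∣ a) : Scal A (lauS K m) :=
  ⟨mono a 1, by
    classical
    constructor
    · intro h hh
      rw [coeff_mono] at hh
      by_cases e : h = a
      · rw [e]
        exact mem_lauS.2 ha
      · rw [if_neg e] at hh
        exact absurd rfl hh
    · intro h
      rw [coeff_mono]
      split_ifs
      · exact Subalgebra.one_mem _
      · exact Subalgebra.zero_mem _⟩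

theorem sV_zpow_mul_mem (E : Subalgebra (Scal A (lauS K m)) (Lau K A)) {a : ℤ} (ha : (m : ℤ) ∣ a)
    {x : Lau K A} (hx : x ∈ E) : (sV ^ a * x : Lau K A) ∈ E := by
  rw [sV_zpow]
  exact E.smul_mem hx (sS a ha)

theorem w_smul_ge {u : K} {x : Lau K A} {n : ℤ} (h : (n : WithTop ℤ) ≤ w K A x) :
    (n : WithTop ℤ) ≤ w K A (u • x) := by
  rw [le_w_iff] at h ⊢
  intro q hq
  apply h
  intro h0
  apply hq
  rw [THS.coeff_smul, h0, smul_zero]

theorem iota_smul (u : K) (a : A) : (iota (u • a) : Lau K A) = u • iota a := by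
  classical
  ext q
  rw [THS.coeff_smul, coeff_iota, coeff_iota]
  split_ifs
  · rfl
  · rw [smul_zero]

theorem theta_add (ω : Kˣ) (x y : Lau K A) : theta ω (x + y) = theta ω x + theta ω y := by
  ext q
  rw [THS.coeff_add, coeff_theta, coeff_theta, coeff_theta, THS.coeff_add, smul_add]

theorem theta_mono (ω : Kˣ) (a : ℤ) (y : A) :
    theta ω (mono a y : Lau K A) = ((ω ^ a : Kˣ) : K) • (mono a y : Lau K A) := by
  classical
  ext q
  rw [coeff_theta, THS.coeff_smul, coeff_mono]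
  split_ifs with h
  · rw [h]
  · rw [smul_zero, smul_zero]

theorem sV_zpow_mul_iota (z : ℤ) (y : A) : (sV ^ z * iota y : Lau K A) = mono z y := by
  rw [sV_zpow, iota_eq_mono, mono_mul_mono, triv_apply, one_smul, one_mul, add_zero]

variable (ω : Kˣ) (K'' : ℤ) (y : A) (W₁ : Lau K A)

/-- The scalar `(ω^r)^{K''}`. -/
noncomputable def omg (r : ℕ) : Kˣ := (ω ^ r) ^ K''

/-- The normalised perturbation: `θ^r(W) = ω_r s^{K''} (y + B_r)`. -/
noncomputable def pert (r : ℕ) : Lau K A :=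
  (((omg ω K'' r)⁻¹ : Kˣ) : K) • (sV ^ (-K'') * theta (ω ^ r) W₁)

theorem coeff_pert (r : ℕ) (p : ℤ) : (pert ω K'' W₁ r).coeff p =
    (((omg ω K'' r)⁻¹ : Kˣ) : K) • (((ω ^ r) ^ (p + K'') : Kˣ) : K) • W₁.coeff (p + K'') := by
  rw [pert, THS.coeff_smul, coeff_sV_zpow_mul, sub_neg_eq_add, coeff_theta]

theorem theta_decomp (r : ℕ) : theta (ω ^ r) ((mono K'' y : Lau K A) + W₁) =
    ((omg ω K'' r : Kˣ) : K) • (sV ^ K'' * (iota y + pert ω K'' W₁ r)) := by
  rw [theta_add, theta_mono, mul_add, smul_add, sV_zpow_mul_iota, pert, mul_smul_comm, smul_smul,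
    ← Units.val_mul, mul_inv_cancel, Units.val_one, one_smul, ← mul_assoc,
    ← zpow_add₀ sV_ne_zero, add_neg_cancel, zpow_zero, one_mul]
  rfl

theorem prodTheta_decomp (n : ℕ) : prodTheta ω ((mono K'' y : Lau K A) + W₁) n =
    ((∏ r ∈ Finset.range n, omg ω K'' r : Kˣ) : K) •
      (sV ^ ((n : ℤ) * K'') * ordProd (iota y) (pert ω K'' W₁) n) := by
  induction n with
  | zero =>
    simp [prodTheta, ordProd]
  | succ n ih =>
    rw [prodTheta, ih, theta_decomp, Finset.prod_range_succ, Units.val_mul, smul_mul_smul_comm]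
    congr 1
    show _ = sV ^ (((n + 1 : ℕ) : ℤ) * K'') * (ordProd (iota y) (pert ω K'' W₁) n *
      (iota y + pert ω K'' W₁ n))
    have e1 : ((n + 1 : ℕ) : ℤ) * K'' = (n : ℤ) * K'' + K'' := by
      push_cast
      ring
    have hc : Commute (sV ^ K'' : Lau K A) (ordProd (iota y) (pert ω K'' W₁) n) :=
      (sV_central _).zpow_left₀ K''
    rw [e1, zpow_add₀ sV_ne_zero, mul_assoc, mul_assoc, ← mul_assoc _ (sV ^ K''), hc.eq.symm,
      mul_assoc]

theorem le_w_pert {n : ℤ} (h : ((K'' + n : ℤ) : WithTop ℤ) ≤ w K A W₁) (r : ℕ) :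
    (n : WithTop ℤ) ≤ w K A (pert ω K'' W₁ r) := by
  rw [le_w_iff] at h ⊢
  intro p hp
  have h1 : W₁.coeff (p + K'') ≠ 0 := by
    intro h0
    apply hp
    rw [coeff_pert, h0, smul_zero, smul_zero]
  have := h _ h1
  omega

theorem coeff_pert_of_dvd {hω : ω ^ m = 1} {q : ℤ} (hq : (m : ℤ) ∣ q) (r : ℕ) :
    (pert ω K'' W₁ r).coeff q = W₁.coeff (q + K'') := by
  have h1 : (ω ^ r) ^ m = 1 := by
    rw [← pow_mul, mul_comm, pow_mul, hω, one_pow]
  have h2 : (ω ^ r) ^ q = 1 := zpow_eq_one_of_dvd h1 hq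
  rw [coeff_pert, smul_smul, ← Units.val_mul, zpow_add, h2, one_mul, omg, inv_mul_cancel,
    Units.val_one, one_smul]

section Main

variable [FiniteDimensional K A] {τ₀ : A →ₗ[K] K} (hτ₀ : IsTraceForm τ₀)

theorem integral_z₀ (z₀ : A) : IsIntegral K z₀ := IsIntegral.of_finite K z₀

theorem lau_cast_val {hmA : (m : A) ≠ 0} : w K A ((m : ℕ) : Lau K A) = 0 := by
  have h : ((m : ℕ) : Lau K A) = iota (m : A) := (map_natCast _ _).symm
  rw [h]
  exact w_iota hmA

/-- **Key Lemma, unramified case** (`m ∤ j`): `E` has dimension at most that of `K[z₀]`, contains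
`β` and the norm of `W = y s^K'' + W₁`, `z₀ = β + λ y^m`. -/
theorem lau_key_unram [CharZero K] (hm : 0 < m) (hmA : (m : A) ≠ 0)
    (E : Subalgebra (Scal A (lauS K m)) (Lau K A)) (hcomm : ∀ a ∈ E, ∀ b ∈ E, a * b = b * a)
    {β z₀ : A} {lam : K} (hz₀ : z₀ = β + lam • y ^ m) (hy0 : y ≠ 0)
    (hyF : y ∈ Algebra.adjoin K {z₀})
    (hdim : Module.finrank (Scal A (lauS K m)) E ≤ Module.finrank K (Algebra.adjoin K {z₀}))
    (hβ : (iota β : Lau K A) ∈ E) (hω : ω ^ m = 1) {n : ℕ} (hn : 1 ≤ n)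
    (hW₁ : ((K'' + n : ℤ) : WithTop ℤ) ≤ w K A W₁)
    (hN : prodTheta ω ((mono K'' y : Lau K A) + W₁) m ∈ E)
    {q : ℤ} (hq : (m : ℤ) ∣ q) (hq0 : q ≠ 0) (hq2 : q < 2 * n) :
    (proj hτ₀ z₀ (W₁.coeff (q + K'')) : A) ∈ Algebra.adjoin K {z₀} := by
  classical
  have hfin := lau_finite (K := K) (A := A) hm
  set B := pert ω K'' W₁ with hB
  set ν := ordProd (iota y) B m with hν
  -- `ν ∈ E`
  have hνE : ν ∈ E := by
    have h1 := prodTheta_decomp ω K'' y W₁ m
    set U : Kˣ := ∏ r ∈ Finset.range m, omg ω K'' r with hU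
    have h2 : ν = ((U⁻¹ : Kˣ) : K) • (sV ^ (-((m : ℤ) * K'')) *
        prodTheta ω ((mono K'' y : Lau K A) + W₁) m) := by
      rw [h1, mul_smul_comm, smul_smul, ← Units.val_mul, inv_mul_cancel, Units.val_one, one_smul,
        ← mul_assoc, ← zpow_add₀ sV_ne_zero, neg_add_cancel, zpow_zero, one_mul]
    rw [h2]
    exact smul_K_mem E _ (sV_zpow_mul_mem E ((dvd_neg).2 (dvd_mul_right _ _)) hN)
  have hn0 : (0 : WithTop ℤ) < (n : WithTop ℤ) := by exact_mod_cast hn
  have hBw : ∀ r, (n : WithTop ℤ) ≤ w K A (B r) := fun r => by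
    have := le_w_pert ω K'' W₁ (n := (n : ℤ)) hW₁ r
    exact_mod_cast this
  have hiy : 0 ≤ w K A (iota y : Lau K A) := w_iota_nonneg y
  have hord := val_ordProd_sub (w := w K A) hiy hBw m
  have hoF := val_ordFirst_ge (w := w K A) (y := (iota y : Lau K A)) (B := B)
    (n := (n : WithTop ℤ)) hiy hBw m
  have hnn : (n : WithTop ℤ) ≤ ((2 * n : ℕ) : WithTop ℤ) := by
    exact_mod_cast (by omega : n ≤ 2 * n)
  -- `ν ≡ y^m`
  have hνy : (n : WithTop ℤ) ≤ w K A (ν - iota (y ^ m)) := by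
    have e : ν - iota (y ^ m) = (ν - (iota y) ^ m - ordFirst (iota y) B m) +
        ordFirst (iota y) B m := by
      rw [map_pow]
      abel
    rw [e]
    exact le_trans (le_min (le_trans hnn hord) hoF) ((w K A).map_add _ _)
  -- the polynomial
  have hint := integral_z₀ (K := K) z₀
  let f₀ : K[X] := minpoly K z₀
  have hf₀ : aeval z₀ f₀ = 0 := minpoly.aeval K z₀
  have hsep : f₀.Separable := (minpoly.irreducible hint).separable
  have hd₀ : aeval z₀ (derivative f₀) ≠ 0 := aeval_derivative_ne_of_separable hsep hf₀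
  let f : (Scal A (lauS K m))[X] := f₀.map (Scal.ofK (A := A) (lauS K m))
  have hf : Inertial.Integral (w K A) f := integral_map_ofK f₀
  have hfz : aeval (iota z₀ : Lau K A) f = 0 := by
    rw [aeval_map_ofK, hf₀, map_zero]
  have hdz : w K A (aeval (iota z₀ : Lau K A) (derivative f)) = 0 := by
    rw [derivative_map, aeval_map_ofK]
    exact w_iota hd₀
  have hdim' : Module.finrank (Scal A (lauS K m)) E ≤ Module.finrank (Scal A (lauS K m))
      (Algebra.adjoin (Scal A (lauS K m)) {(iota z₀ : Lau K A)}) :=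
    le_trans hdim (finrank_adjoin_le hm z₀)
  -- the approximate generator
  set z : Lau K A := iota β + lam • ν with hz
  have hzE : z ∈ E := E.add_mem hβ (smul_K_mem E lam hνE)
  have hzz : (n : WithTop ℤ) ≤ w K A (z - iota z₀) := by
    have e : z - iota z₀ = lam • (ν - iota (y ^ m)) := by
      rw [hz, hz₀, map_add, iota_smul, smul_sub]
      abel
    rw [e]
    have h1 : (((n : ℤ)) : WithTop ℤ) ≤ w K A (ν - iota (y ^ m)) := by exact_mod_cast hνy
    have := w_smul_ge (u := lam) h1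
    exact_mod_cast this
  obtain ⟨κ', g, hg, -, -, hmain⟩ := exists_first_order hf (traceL (lauS K m) τ₀)
    (fun x hx => traceL_nondeg (lauS K m) τ₀ hτ₀.nondeg x hx)
    (fun x => traceL_val (lauS K m) τ₀ (AddMonoidHom.id ℤ) monotone_id x)
    lau_complete E hcomm (w_iota_nonneg z₀) hfz hdz hdim' hzE hn hzz hνE
    (w_iota_nonneg (y ^ m)) hνy
  -- read off the coefficient at `q`
  have hrel := coefData.c_rel (a := y ^ m) hmain hq2
  have hq2' : ((q : ℤ) : WithTop ℤ) < w K A (ν - (iota y) ^ m - ordFirst (iota y) B m) := by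
    refine lt_of_lt_of_le ?_ hord
    have h1 : q < ((2 * n : ℕ) : ℤ) := by exact_mod_cast hq2
    have h2 : ((q : ℤ) : WithTop ℤ) < (((2 * n : ℕ) : ℤ) : WithTop ℤ) := WithTop.coe_lt_coe.2 h1
    rwa [WithTop.coe_natCast] at h2
  have h0 := coeff_eq_zero_of_lt_w hq2'
  have hyq : ((iota y : Lau K A) ^ m).coeff q = 0 := by
    rw [← map_pow, coeff_iota, if_neg hq0]
  rw [THS.coeff_sub, THS.coeff_sub, hyq, sub_zero] at h0
  have hνq : ν.coeff q = (ordFirst (iota y) B m).coeff q := sub_eq_zero.1 h0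
  have hcF := coefData.c_ordFirst y B q m (W₁.coeff (q + K''))
    (fun r => coeff_pert_of_dvd ω K'' W₁ (hω := hω) hq r)
  have hgq : g.coeff q ∈ Algebra.adjoin K {z₀} :=
    coeff_mem_of_mem_adjoin (S := {(iota z₀ : Lau K A)}) (by
      intro x hx p
      rw [Set.mem_singleton_iff.1 hx]
      exact coeff_iota_mem (Algebra.self_mem_adjoin_singleton K z₀) p) hg q
  refine proj_mem_of_first_order hτ₀ z₀ hmA hyF hy0 hgq (κ := κ'.coeff q) ?_
  have h5 : ν.coeff q = g.coeff q + (κ'.coeff q * y ^ m - y ^ m * κ'.coeff q) := hrel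
  have h6 : (ordFirst (iota y) B m).coeff q = ordFirst y (fun _ => W₁.coeff (q + K'')) m := hcF
  rw [← h6, ← hνq, h5]

/-- **Key Lemma, ramified case** (`m ∣ j`): `E` has dimension at most `m` times that of `K[z₀]`,
contains `β` and `W = y s^K'' + W₁`, `K''` prime to `m`, `z₀ = β + λ y^m`. -/
theorem lau_key_ram [CharZero K] (hm : 0 < m) (hmA : (m : A) ≠ 0)
    (E : Subalgebra (Scal A (lauS K m)) (Lau K A)) (hcomm : ∀ a ∈ E, ∀ b ∈ E, a * b = b * a)
    {β z₀ : A} {lam : K} (hz₀ : z₀ = β + lam • y ^ m) (hy0 : y ≠ 0)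
    (hyF : y ∈ Algebra.adjoin K {z₀})
    (hdim : Module.finrank (Scal A (lauS K m)) E ≤ Module.finrank K (Algebra.adjoin K {z₀}) * m)
    (hβ : (iota β : Lau K A) ∈ E) (hcop : IsCoprime K'' (m : ℤ)) {n : ℕ} (hn : 1 ≤ n)
    (hW₁ : ((K'' + n : ℤ) : WithTop ℤ) ≤ w K A W₁)
    (hW : (mono K'' y : Lau K A) + W₁ ∈ E)
    {q : ℤ} (hq0 : q ≠ 0) (hq2 : q < 2 * n) :
    (proj hτ₀ z₀ (W₁.coeff (q + K'')) : A) ∈ Algebra.adjoin K {z₀} := by
  classical
  have hfin := lau_finite (K := K) (A := A) hm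
  set W : Lau K A := (mono K'' y : Lau K A) + W₁ with hWdef
  set ν : Lau K A := sV ^ (-K'') * W with hν
  have hνe : ν = iota y + sV ^ (-K'') * W₁ := by
    rw [hν, hWdef, mul_add, sV_zpow, mono_mul_mono, triv_apply, one_smul, one_mul, neg_add_cancel]
    rfl
  have hn0 : (0 : WithTop ℤ) < (n : WithTop ℤ) := by exact_mod_cast hn
  have hW₁' : ((n : ℤ) : WithTop ℤ) ≤ w K A (sV ^ (-K'') * W₁) := by
    rw [le_w_iff] at hW₁ ⊢
    intro p hp
    rw [coeff_sV_zpow_mul, sub_neg_eq_add] at hp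
    have := hW₁ _ hp
    omega
  have hνy : (n : WithTop ℤ) ≤ w K A (ν - iota y) := by
    have e : ν - iota y = sV ^ (-K'') * W₁ := by
      rw [hνe]
      abel
    rw [e]
    exact_mod_cast hW₁'
  have hiy : 0 ≤ w K A (iota y : Lau K A) := w_iota_nonneg y
  have hν0 : 0 ≤ w K A ν := by
    have e : ν = (ν - iota y) + iota y := by abel
    rw [e]
    exact le_trans (le_min (le_trans hn0.le hνy) hiy) ((w K A).map_add _ _)
  -- `ν^m ∈ E`
  have hνm : ν ^ m = sV ^ (-((m : ℤ) * K'')) * W ^ m := by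
    have hc : Commute (sV ^ (-K'') : Lau K A) W := (sV_central _).zpow_left₀ _
    rw [hν, hc.mul_pow, ← zpow_natCast, ← zpow_mul]
    congr 2
    ring
  have hνmE : ν ^ m ∈ E := by
    rw [hνm]
    exact sV_zpow_mul_mem E ((dvd_neg).2 (dvd_mul_right _ _)) (E.pow_mem hW m)
  have hνmy : (n : WithTop ℤ) ≤ w K A (ν ^ m - iota (y ^ m)) := by
    rw [map_pow]
    rcases Inertial.val_pow_sub (w K A) hν0 hiy hνy m with h | h
    · exact h
    · omega
  -- the polynomial
  have hint := integral_z₀ (K := K) z₀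
  let f₀ : K[X] := minpoly K z₀
  have hf₀ : aeval z₀ f₀ = 0 := minpoly.aeval K z₀
  have hsep : f₀.Separable := (minpoly.irreducible hint).separable
  have hd₀ : aeval z₀ (derivative f₀) ≠ 0 := aeval_derivative_ne_of_separable hsep hf₀
  let f : (Scal A (lauS K m))[X] := f₀.map (Scal.ofK (A := A) (lauS K m))
  have hf : Inertial.Integral (w K A) f := integral_map_ofK f₀
  have hfz : aeval (iota z₀ : Lau K A) f = 0 := by
    rw [aeval_map_ofK, hf₀, map_zero]
  have hdz : w K A (aeval (iota z₀ : Lau K A) (derivative f)) = 0 := by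
    rw [derivative_map, aeval_map_ofK]
    exact w_iota hd₀
  have hdim' : Module.finrank (Scal A (lauS K m)) E ≤ Module.finrank (Scal A (lauS K m))
      (Algebra.adjoin (Scal A (lauS K m))
        ({(iota z₀ : Lau K A), (sV : Lau K A)} : Set (Lau K A))) :=
    le_trans hdim (finrank_adjoin_s_le hm z₀)
  -- the approximate generator
  set z : Lau K A := iota β + lam • ν ^ m with hz
  have hzE : z ∈ E := E.add_mem hβ (smul_K_mem E lam hνmE)
  have hzz : (n : WithTop ℤ) ≤ w K A (z - iota z₀) := by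
    have e : z - iota z₀ = lam • (ν ^ m - iota (y ^ m)) := by
      rw [hz, hz₀, map_add, iota_smul, smul_sub]
      abel
    rw [e]
    have h1 : (((n : ℤ)) : WithTop ℤ) ≤ w K A (ν ^ m - iota (y ^ m)) := by exact_mod_cast hνmy
    have := w_smul_ge (u := lam) h1
    exact_mod_cast this
  have hu : algebraMap (Scal A (lauS K m)) (Lau K A) (sS (m : ℤ) (dvd_refl _)) = sV ^ m := by
    rw [sV_pow]
    rfl
  obtain ⟨κ', g, hg, -, -, hmain⟩ := exists_first_order_ram hf (traceL (lauS K m) τ₀)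
    (fun x hx => traceL_nondeg (lauS K m) τ₀ hτ₀.nondeg x hx)
    (fun x => traceL_val (lauS K m) τ₀ (AddMonoidHom.id ℤ) monotone_id x)
    lau_complete E hcomm (w_iota_nonneg z₀) hfz hdz hzE hn hzz
    (lau_cast_val (hmA := hmA)) hm sV_ne_zero sV_central hu hcop hdim'
    (iota_mem_adjoin (Set.mem_singleton _) hyF) (w_iota hy0) hW hνy
  have hrel := coefData.c_rel (a := y) hmain hq2
  have hgq : g.coeff q ∈ Algebra.adjoin K {z₀} :=
    coeff_mem_of_mem_adjoin (S := ({(iota z₀ : Lau K A), (sV : Lau K A)} : Set (Lau K A))) (by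
      intro x hx p
      rcases hx with hx | hx
      · rw [hx]
        exact coeff_iota_mem (Algebra.self_mem_adjoin_singleton K z₀) p
      · rw [Set.mem_singleton_iff.1 hx]
        exact coeff_sV_mem p) hg q
  have hνq : ν.coeff q = W₁.coeff (q + K'') := by
    rw [hνe, THS.coeff_add, coeff_iota, if_neg hq0, zero_add, coeff_sV_zpow_mul, sub_neg_eq_add]
  refine proj_mem_of_first_order (m := 1) hτ₀ z₀ (by simp) hyF hy0 hgq (κ := κ'.coeff q) ?_
  have h5 : ν.coeff q = g.coeff q + (κ'.coeff q * y - y * κ'.coeff q) := hrel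
  rw [hνq] at h5
  simp only [ordFirst, pow_one, pow_zero, zero_mul, one_mul, zero_add]
  exact h5

end Main

end KeyThm

/-! ## The Key Lemma in the level-up ring -/

section Level

open KeyCore KeyOne

variable {ζ : Kˣ} {hζ : ζ ^ m = 1}

/-- The level-up ring is finite dimensional over its central field. -/
theorem up_finite [FiniteDimensional K A] (hm : 0 < m) :
    Module.Finite (Scal A (upS ζ hζ)) (Up A ζ) := by
  classical
  have hm' : (0 : ℤ) < m := by exact_mod_cast hm
  let T0 : Finset ℤ := (Finset.range m).image (fun i : ℕ => (i : ℤ))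
  refine finite_of_reps (upS ζ hζ) ((T0 ×ˢ T0).image (fun p => toLex (p.1, p.2))) ?_ ?_
  · intro g
    have hmem : ∀ a : ℤ, ((a % m).toNat : ℤ) ∈ T0 := by
      intro a
      refine Finset.mem_image.2 ⟨(a % m).toNat, Finset.mem_range.2 ?_, rfl⟩
      have h1 := Int.emod_lt_of_pos a hm'
      have h2 := Int.emod_nonneg a hm'.ne'
      omega
    have hdvd : ∀ a : ℤ, (m : ℤ) ∣ a - ((a % m).toNat : ℤ) := by
      intro a
      have h2 := Int.emod_nonneg a hm'.ne'
      rw [Int.toNat_of_nonneg h2]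
      exact Int.dvd_self_sub_emod
    refine ⟨toLex ((((ofLex g).1 % m).toNat : ℤ), (((ofLex g).2 % m).toNat : ℤ)), ?_, ?_⟩
    · exact Finset.mem_image.2 ⟨(_, _), Finset.mk_mem_product (hmem _) (hmem _), rfl⟩
    · exact ⟨hdvd _, hdvd _⟩
  · intro t ht t' ht' h
    obtain ⟨⟨a, b⟩, hab, rfl⟩ := Finset.mem_image.1 ht
    obtain ⟨⟨a', b'⟩, hab', rfl⟩ := Finset.mem_image.1 ht'
    obtain ⟨ha, hb⟩ := Finset.mem_product.1 hab
    obtain ⟨ha', hb'⟩ := Finset.mem_product.1 hab'
    have key : ∀ c c' : ℤ, c ∈ T0 → c' ∈ T0 → (m : ℤ) ∣ c - c' → c = c' := by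
      intro c c' hc hc' hd
      obtain ⟨i, hi, rfl⟩ := Finset.mem_image.1 hc
      obtain ⟨i', hi', rfl⟩ := Finset.mem_image.1 hc'
      have h1 := Finset.mem_range.1 hi
      have h2 := Finset.mem_range.1 hi'
      obtain ⟨c0, hc0⟩ := hd
      have hc00 : c0 = 0 := by
        by_contra hne
        have h3 : (m : ℤ) ≤ |(i : ℤ) - i'| := by
          rw [hc0, abs_mul, abs_of_nonneg (Int.natCast_nonneg m)]
          have : (1 : ℤ) ≤ |c0| := Int.one_le_abs hne
          nlinarith [Int.natCast_nonneg m]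
        have h4 : |(i : ℤ) - i'| < m := by
          rw [abs_lt]
          constructor <;> omega
        omega
      rw [hc00, mul_zero] at hc0
      omega
    have h1 := key a a' ha ha' h.1
    have h2 := key b b' hb hb' h.2
    simp only at h1 h2 ⊢
    rw [h1, h2]

/-- Values of scalars are multiples of `m`. -/
theorem val_scal (c : Scal A (upS ζ hζ)) (hc : c ≠ 0) :
    ∃ n : ℤ, (resD hζ).v (c • (1 : Up A ζ)) = ((m * n : ℤ) : WithTop ℤ) := by
  have h1 : c • (1 : Up A ζ) = c.1 := by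
    rw [Scal.smul_def, mul_one]
  have h2 : c.1 ≠ 0 := fun h => hc (Subtype.ext h)
  have h3 := (c.2.1 _ (ord_mem h2)).1
  obtain ⟨n, hn⟩ := h3
  refine ⟨n, ?_⟩
  rw [h1]
  show vU A ζ c.1 = _
  rw [vU, THS.val_of_ne h2, fstHom_apply, hn]

theorem part_ne_zero {j K'' : ℤ} {π : Up A ζ} {y : A} (hy0 : y ≠ 0) {W₁ : Lau K A} {n : ℕ}
    (hn : 1 ≤ n) (hW₁ : ((K'' + n : ℤ) : WithTop ℤ) ≤ w K A W₁)
    (hpart : part j π = (mono K'' y : Lau K A) + W₁) : part j π ≠ 0 := by
  classical
  intro h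
  have h1 := congrArg (fun x : Lau K A => x.coeff K'') h
  simp only [hpart] at h1
  rw [THS.coeff_add, coeff_mono, if_pos rfl] at h1
  have h2 : W₁.coeff K'' = 0 := by
    apply coeff_eq_zero_of_lt_w
    refine lt_of_lt_of_le ?_ hW₁
    exact WithTop.coe_lt_coe.2 (by omega)
  rw [h2, add_zero] at h1
  exact hy0 h1

variable [FiniteDimensional K A] {τ₀ : A →ₗ[K] K} (hτ₀ : IsTraceForm τ₀)

/-- **Key Lemma at the level of an element `π` of `F`, `m ∤ j`.** -/
theorem key_unram [CharZero K] (hm : m.Prime) (hmA : (m : A) ≠ 0)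
    (F : Subalgebra (Scal A (upS ζ hζ)) (Up A ζ)) [FiniteDimensional (Scal A (upS ζ hζ)) F]
    (hF : ∀ a ∈ F, ∀ b ∈ F, a * b = b * a)
    {β y z₀ : A} {lam : K} (hz₀ : z₀ = β + lam • y ^ m) (hy0 : y ≠ 0)
    (hyF : y ∈ Algebra.adjoin K {z₀})
    (hdim : Module.finrank (Scal A (upS ζ hζ)) F ≤ Module.finrank K (Algebra.adjoin K {z₀}) * m)
    (hβ : (iota β : Lau K A) ∈ (resD hζ).resAlg F)
    {π : Up A ζ} (hπ : π ∈ F) {j : ℤ} (hj : ¬ (m : ℤ) ∣ j) (hπv : (j : WithTop ℤ) ≤ vU A ζ π)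
    {K'' : ℤ} {W₁ : Lau K A} {n : ℕ} (hn : 1 ≤ n)
    (hW₁ : ((K'' + n : ℤ) : WithTop ℤ) ≤ w K A W₁)
    (hpart : part j π = (mono K'' y : Lau K A) + W₁)
    {q : ℤ} (hq : (m : ℤ) ∣ q) (hq0 : q ≠ 0) (hq2 : q < 2 * n) :
    (proj hτ₀ z₀ (W₁.coeff (q + K'')) : A) ∈ Algebra.adjoin K {z₀} := by
  have hmpos := hm.pos
  have hfinL := lau_finite (K := K) (A := A) hmpos
  have hfinE : FiniteDimensional (Scal A (lauS K m)) ((resD hζ).resAlg F) :=
    FiniteDimensional.finiteDimensional_submodule (Subalgebra.toSubmodule ((resD hζ).resAlg F))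
  have hval : (resD hζ).v π = (j : WithTop ℤ) :=
    vU_eq_of_part_ne hπv (part_ne_zero hy0 hn hW₁ hpart)
  have h1 := (resD hζ).finrank_resAlg_mul_le F hm (fun c hc => val_scal c hc) hπ hval hj
  have hdimE : Module.finrank (Scal A (lauS K m)) ((resD hζ).resAlg F) ≤
      Module.finrank K (Algebra.adjoin K {z₀}) :=
    Nat.le_of_mul_le_mul_right (le_trans h1 hdim) hmpos
  have hω : (ζ ^ j) ^ m = 1 := by
    rw [← zpow_natCast, ← zpow_mul, mul_comm, zpow_mul, zpow_natCast, hζ, one_zpow]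
  obtain ⟨h2, h3⟩ := part_pow hπv m
  have hN : prodTheta (ζ ^ j) ((mono K'' y : Lau K A) + W₁) m ∈ (resD hζ).resAlg F := by
    rw [← hpart, ← h3]
    exact part_mem_resAlg F (F.pow_mem hπ m) (dvd_mul_right _ _) h2
  exact lau_key_unram (ζ ^ j) K'' y W₁ hτ₀ hmpos hmA _ ((resD hζ).resAlg_comm hF) hz₀ hy0 hyF hdimE
    hβ hω hn hW₁ hN hq hq0 hq2

/-- **Key Lemma at the level of an element `π` of `F`, `m ∣ j`.** -/
theorem key_ram [CharZero K] (hm : m.Prime) (hmA : (m : A) ≠ 0)
    (F : Subalgebra (Scal A (upS ζ hζ)) (Up A ζ)) [FiniteDimensional (Scal A (upS ζ hζ)) F]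
    (hF : ∀ a ∈ F, ∀ b ∈ F, a * b = b * a)
    {β y z₀ : A} {lam : K} (hz₀ : z₀ = β + lam • y ^ m) (hy0 : y ≠ 0)
    (hyF : y ∈ Algebra.adjoin K {z₀})
    (hdim : Module.finrank (Scal A (upS ζ hζ)) F ≤ Module.finrank K (Algebra.adjoin K {z₀}) * m)
    (hβ : (iota β : Lau K A) ∈ (resD hζ).resAlg F)
    {π : Up A ζ} (hπ : π ∈ F) {j : ℤ} (hj : (m : ℤ) ∣ j) (hπv : (j : WithTop ℤ) ≤ vU A ζ π)
    {K'' : ℤ} (hcop : IsCoprime K'' (m : ℤ)) {W₁ : Lau K A} {n : ℕ} (hn : 1 ≤ n)
    (hW₁ : ((K'' + n : ℤ) : WithTop ℤ) ≤ w K A W₁)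
    (hpart : part j π = (mono K'' y : Lau K A) + W₁)
    {q : ℤ} (hq0 : q ≠ 0) (hq2 : q < 2 * n) :
    (proj hτ₀ z₀ (W₁.coeff (q + K'')) : A) ∈ Algebra.adjoin K {z₀} := by
  have hmpos := hm.pos
  have hfinL := lau_finite (K := K) (A := A) hmpos
  have hfinE : FiniteDimensional (Scal A (lauS K m)) ((resD hζ).resAlg F) :=
    FiniteDimensional.finiteDimensional_submodule (Subalgebra.toSubmodule ((resD hζ).resAlg F))
  have h1 := (resD hζ).finrank_resAlg_le F
  have hW : (mono K'' y : Lau K A) + W₁ ∈ (resD hζ).resAlg F := by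
    rw [← hpart]
    exact part_mem_resAlg F hπ hj hπv
  exact lau_key_ram K'' y W₁ hτ₀ hmpos hmA _ ((resD hζ).resAlg_comm hF) hz₀ hy0 hyF
    (le_trans h1 hdim) hβ hcop hn hW₁ hW hq0 hq2

end Level

end KeyHahn

end Crest.Agent.Kurosh
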