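import Crest.Agent.Kurosh.KeyHahn

/-!
# S0270 module M8a: the level-up ring `U = A((s))((s'))`

`Up ζ = THS A (twist ζ)`, exponents `(j, K) ∈ ℤ ×ₗ ℤ` (`s'`-order first), product twisted by
`ζ^{j₁ K₂}`.

* `vU`: the `s'`-order, `part j x ∈ A((s))`: the part of `x` of `s'`-order `j`.
* `part_mul`: `part (j₁ + j₂) (x y) = part j₁ x * θ^{j₁} (part j₂ y)`.
* `resD`: the residue data `U → A((s))`.
-/

set_option autoImplicit false
set_option linter.unusedSectionVars false

namespace Crest.Agent.Kurosh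

namespace KeyHahn

open THS Polynomial

variable {K : Type*} [Field K] {A : Type*} [DivisionRing A] [Algebra K A]

/-- The bicharacter `ζ^{j₁ K₂}`. -/
def twist (ζ : Kˣ) : Bichar (ℤ ×ₗ ℤ) K where
  toFun a b := ((ζ ^ ((ofLex a).1 * (ofLex b).2) : Kˣ) : K)
  add_left' a b c := by
    show ((ζ ^ (((ofLex a).1 + (ofLex b).1) * (ofLex c).2) : Kˣ) : K) = _
    rw [add_mul, zpow_add, Units.val_mul]
  add_right' a b c := by
    show ((ζ ^ ((ofLex a).1 * ((ofLex b).2 + (ofLex c).2)) : Kˣ) : K) = _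
    rw [mul_add, zpow_add, Units.val_mul]
  ne_zero' _ _ := Units.ne_zero _

theorem twist_apply (ζ : Kˣ) (a b : ℤ ×ₗ ℤ) :
    twist ζ a b = ((ζ ^ ((ofLex a).1 * (ofLex b).2) : Kˣ) : K) := rfl

variable (A) in
/-- `A((s))((s'))`. -/
abbrev Up (ζ : Kˣ) : Type _ := THS A (twist ζ)

/-- The `s'`-order as an additive map. -/
def fstHom : (ℤ ×ₗ ℤ) →+ ℤ where
  toFun a := (ofLex a).1
  map_zero' := rfl
  map_add' _ _ := rfl

theorem fstHom_apply (a : ℤ ×ₗ ℤ) : fstHom a = (ofLex a).1 := rfl

theorem fstHom_mono : Monotone fstHom := by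
  intro a b h
  rcases Prod.Lex.le_iff.1 h with h | ⟨h, _⟩
  · exact h.le
  · exact h.le

variable {ζ : Kˣ}

variable (A ζ) in
/-- The `s'`-adic valuation. -/
noncomputable def vU : AddValuation (Up A ζ) (WithTop ℤ) := THS.val fstHom fstHom_mono

theorem le_vU_iff {x : Up A ζ} {n : ℤ} :
    (n : WithTop ℤ) ≤ vU A ζ x ↔ ∀ g, x.coeff g ≠ 0 → n ≤ (ofLex g).1 :=
  THS.le_val_iff

/-- The part of `s'`-order `j`, as a Laurent series in `s`. -/
noncomputable def part (j : ℤ) (x : Up A ζ) : Lau K A := ofH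
  { coeff := fun q => x.coeff (toLex (j, q))
    isPWO_support' := by
      let f : ℤ ×ₗ ℤ → ℤ := fun g => (ofLex g).2
      have h1 : (x.supp ∩ {g | (ofLex g).1 = j}).IsPWO := x.isPWO_supp.mono Set.inter_subset_left
      have hf : MonotoneOn f (x.supp ∩ {g | (ofLex g).1 = j}) := by
        intro a ha b hb hab
        rcases Prod.Lex.le_iff.1 hab with h | ⟨_, h⟩
        · rw [ha.2, hb.2] at h
          exact absurd h (lt_irrefl _)
        · exact h
      refine (h1.image_of_monotoneOn hf).mono ?_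
      intro q hq
      exact ⟨toLex (j, q), ⟨hq, rfl⟩, rfl⟩ }

theorem coeff_part (j : ℤ) (x : Up A ζ) (q : ℤ) : (part j x).coeff q = x.coeff (toLex (j, q)) := rfl

theorem part_add (j : ℤ) (x y : Up A ζ) : part j (x + y) = part j x + part j y := rfl

theorem part_sub (j : ℤ) (x y : Up A ζ) : part j (x - y) = part j x - part j y := rfl

/-- Rescaling `x_q ↦ ω^q x_q` of a Laurent series: conjugation by a power of `s'`. -/
noncomputable def theta (ω : Kˣ) (x : Lau K A) : Lau K A := ofH
  { coeff := fun q => ((ω ^ q : Kˣ) : K) • x.coeff q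
    isPWO_support' := by
      refine x.isPWO_supp.mono ?_
      intro q hq h0
      apply hq
      show ((ω ^ q : Kˣ) : K) • x.coeff q = 0
      have h0' : x.coeff q = 0 := h0
      rw [h0', smul_zero] }

theorem coeff_theta (ω : Kˣ) (x : Lau K A) (q : ℤ) :
    (theta ω x).coeff q = ((ω ^ q : Kˣ) : K) • x.coeff q := rfl

theorem theta_one (x : Lau K A) : theta 1 x = x := by
  ext q
  rw [coeff_theta]
  simp

theorem coeff_theta_ne {ω : Kˣ} {x : Lau K A} {q : ℤ} (h : x.coeff q ≠ 0) :
    (theta ω x).coeff q ≠ 0 := by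
  rw [coeff_theta]
  exact smul_ne_zero (Units.ne_zero _) h

/-- **The product formula for parts.** -/
theorem part_mul {x y : Up A ζ} {j1 j2 : ℤ} (hx : (j1 : WithTop ℤ) ≤ vU A ζ x)
    (hy : (j2 : WithTop ℤ) ≤ vU A ζ y) :
    part (j1 + j2) (x * y) = part j1 x * theta (ζ ^ j1) (part j2 y) := by
  classical
  have hx' := le_vU_iff.1 hx
  have hy' := le_vU_iff.1 hy
  ext q
  rw [coeff_part, THS.coeff_mul, THS.coeff_mul]
  refine Finset.sum_nbij' (fun ab => ((ofLex ab.1).2, (ofLex ab.2).2))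
    (fun kk => (toLex (j1, kk.1), toLex (j2, kk.2))) ?_ ?_ ?_ ?_ ?_
  · rintro ⟨a, b⟩ h
    obtain ⟨ha, hb, hab⟩ := Finset.mem_antidiagonal.1 h
    simp only at ha hb hab
    have h1 := hx' a ha
    have h2 := hy' b hb
    have hab1 : (ofLex a).1 + (ofLex b).1 = j1 + j2 := congrArg (fun g => (ofLex g).1) hab
    have hab2 : (ofLex a).2 + (ofLex b).2 = q := congrArg (fun g => (ofLex g).2) hab
    have ea : (ofLex a).1 = j1 := by omega
    have eb : (ofLex b).1 = j2 := by omega
    have ea' : toLex (j1, (ofLex a).2) = a := by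
      rw [← ea]
      rfl
    have eb' : toLex (j2, (ofLex b).2) = b := by
      rw [← eb]
      rfl
    refine Finset.mem_antidiagonal.2 ⟨?_, ?_, hab2⟩
    · show (part j1 x).coeff (ofLex a).2 ≠ 0
      rw [coeff_part, ea']
      exact ha
    · apply coeff_theta_ne
      rw [coeff_part, eb']
      exact hb
  · rintro ⟨c, d⟩ h
    obtain ⟨hc, hd, hcd⟩ := Finset.mem_antidiagonal.1 h
    simp only at hc hd hcd
    refine Finset.mem_antidiagonal.2 ⟨?_, ?_, ?_⟩
    · exact hc
    · intro h0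
      apply hd
      show (theta (ζ ^ j1) (part j2 y)).coeff d = 0
      rw [coeff_theta, coeff_part]
      have h0' : y.coeff (toLex (j2, d)) = 0 := h0
      rw [h0', smul_zero]
    · show toLex (j1 + j2, c + d) = toLex (j1 + j2, q)
      rw [hcd]
  · rintro ⟨a, b⟩ h
    obtain ⟨ha, hb, hab⟩ := Finset.mem_antidiagonal.1 h
    simp only at ha hb hab
    have h1 := hx' a ha
    have h2 := hy' b hb
    have hab1 : (ofLex a).1 + (ofLex b).1 = j1 + j2 := congrArg (fun g => (ofLex g).1) hab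
    have ea : (ofLex a).1 = j1 := by omega
    have eb : (ofLex b).1 = j2 := by omega
    simp only
    rw [← ea, ← eb]
    rfl
  · rintro ⟨c, d⟩ -
    rfl
  · rintro ⟨a, b⟩ h
    obtain ⟨ha, hb, hab⟩ := Finset.mem_antidiagonal.1 h
    simp only at ha hb hab
    have h1 := hx' a ha
    have h2 := hy' b hb
    have hab1 : (ofLex a).1 + (ofLex b).1 = j1 + j2 := congrArg (fun g => (ofLex g).1) hab
    have ea : (ofLex a).1 = j1 := by omega
    have eb : (ofLex b).1 = j2 := by omega
    have ea' : toLex (j1, (ofLex a).2) = a := by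
      rw [← ea]
      rfl
    have eb' : toLex (j2, (ofLex b).2) = b := by
      rw [← eb]
      rfl
    simp only
    rw [twist_apply, triv_apply, one_smul, coeff_theta, coeff_part, coeff_part, ea', eb', ea,
      mul_smul_comm, ← zpow_mul]

theorem val_ge_mul {x y : Up A ζ} {j1 j2 : ℤ} (hx : (j1 : WithTop ℤ) ≤ vU A ζ x)
    (hy : (j2 : WithTop ℤ) ≤ vU A ζ y) : ((j1 + j2 : ℤ) : WithTop ℤ) ≤ vU A ζ (x * y) := by
  rw [(vU A ζ).map_mul, WithTop.coe_add]
  exact add_le_add hx hy

/-- The ordered product `∏_{r<n} θ^{r}(W)`, `θ` the rescaling by `ω`. -/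
noncomputable def prodTheta (ω : Kˣ) (W : Lau K A) : ℕ → Lau K A
  | 0 => 1
  | n + 1 => prodTheta ω W n * theta (ω ^ n) W

theorem part_zero_one : part 0 (1 : Up A ζ) = 1 := by
  classical
  ext q
  rw [coeff_part, THS.coeff_one, THS.coeff_one]
  by_cases h : q = 0
  · rw [if_pos h, if_pos]
    rw [h]
    rfl
  · rw [if_neg h, if_neg]
    intro h0
    exact h (congrArg (fun g => (ofLex g).2) h0)

/-- `part (n j) (π^n) = ∏_{r<n} θ^{r j}(part j π)`. -/
theorem part_pow {π : Up A ζ} {j : ℤ} (hπ : (j : WithTop ℤ) ≤ vU A ζ π) (n : ℕ) :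
    ((n * j : ℤ) : WithTop ℤ) ≤ vU A ζ (π ^ n) ∧
      part (n * j) (π ^ n) = prodTheta (ζ ^ j) (part j π) n := by
  induction n with
  | zero =>
    constructor
    · rw [pow_zero, (vU A ζ).map_one]
      simp
    · simp only [Nat.cast_zero, zero_mul, pow_zero]
      exact part_zero_one
  | succ n ih =>
    obtain ⟨h1, h2⟩ := ih
    have e : ((n + 1 : ℕ) : ℤ) * j = n * j + j := by
      push_cast
      ring
    constructor
    · rw [e, pow_succ]
      exact val_ge_mul h1 hπ
    · rw [e, pow_succ, part_mul h1 hπ, h2, prodTheta]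
      congr 2
      rw [← zpow_natCast, ← zpow_mul, mul_comm]

/-! ### The central field of `U` and the residue data -/

theorem zpow_eq_one_of_dvd {ζ : Kˣ} {m : ℕ} (hζ : ζ ^ m = 1) {n : ℤ} (h : (m : ℤ) ∣ n) :
    ζ ^ n = 1 := by
  obtain ⟨c, rfl⟩ := h
  rw [zpow_mul, zpow_natCast, hζ, one_zpow]

/-- The subgroup `(mℤ)²`. -/
def upS (ζ : Kˣ) {m : ℕ} (hζ : ζ ^ m = 1) : SymSub (twist ζ) where
  Γ :=
    { carrier := {g | (m : ℤ) ∣ (ofLex g).1 ∧ (m : ℤ) ∣ (ofLex g).2}
      add_mem' := fun ha hb => ⟨dvd_add ha.1 hb.1, dvd_add ha.2 hb.2⟩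
      zero_mem' := ⟨dvd_zero _, dvd_zero _⟩
      neg_mem' := fun ha => ⟨(dvd_neg).2 ha.1, (dvd_neg).2 ha.2⟩ }
  symm γ hγ g := by
    rw [twist_apply, twist_apply, zpow_eq_one_of_dvd hζ (Dvd.dvd.mul_right hγ.1 _),
      zpow_eq_one_of_dvd hζ (Dvd.dvd.mul_left hγ.2 _)]

theorem mem_upS {m : ℕ} {hζ : ζ ^ m = 1} {g : ℤ ×ₗ ℤ} :
    g ∈ (upS ζ hζ).Γ ↔ (m : ℤ) ∣ (ofLex g).1 ∧ (m : ℤ) ∣ (ofLex g).2 := Iff.rfl

/-- The Laurent series `y` placed at `s'`-order `j`. -/
noncomputable def ofPart (j : ℤ) (y : Lau K A) : Up A ζ := by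
  classical
  exact ofH
    { coeff := fun g => if (ofLex g).1 = j then y.coeff (ofLex g).2 else 0
      isPWO_support' := by
        have hmono : Monotone (fun q : ℤ => (toLex (j, q) : ℤ ×ₗ ℤ)) := by
          intro a b hab
          exact Prod.Lex.le_iff.2 (Or.inr ⟨rfl, hab⟩)
        refine (y.isPWO_supp.image_of_monotone hmono).mono ?_
        intro g hg
        have hg' : (if (ofLex g).1 = j then y.coeff (ofLex g).2 else 0) ≠ 0 := hg
        by_cases h : (ofLex g).1 = j
        · rw [if_pos h] at hg'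
          refine ⟨(ofLex g).2, hg', ?_⟩
          show toLex (j, (ofLex g).2) = g
          rw [← h]
          rfl
        · rw [if_neg h] at hg'
          exact absurd rfl hg' }

open Classical in
theorem coeff_ofPart (j : ℤ) (y : Lau K A) (g : ℤ ×ₗ ℤ) :
    (ofPart j y : Up A ζ).coeff g = if (ofLex g).1 = j then y.coeff (ofLex g).2 else 0 := by
  show (if (ofLex g).1 = j then y.coeff (ofLex g).2 else 0) = _
  congr

theorem part_ofPart (j : ℤ) (y : Lau K A) : part j (ofPart j y : Up A ζ) = y := by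
  ext q
  rw [coeff_part, coeff_ofPart]
  exact if_pos rfl

theorem le_vU_ofPart (j : ℤ) (y : Lau K A) : (j : WithTop ℤ) ≤ vU A ζ (ofPart j y : Up A ζ) := by
  classical
  rw [le_vU_iff]
  intro g hg
  rw [coeff_ofPart] at hg
  by_cases h : (ofLex g).1 = j
  · exact h.ge
  · rw [if_neg h] at hg
    exact absurd rfl hg

variable {m : ℕ} {hζ : ζ ^ m = 1}

/-- A scalar of `𝕂` lifted to a scalar of `K'`. -/
noncomputable def liftScal (a : Scal A (lauS K m)) : Scal A (upS ζ hζ) :=
  ⟨ofPart 0 a.1, by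
    classical
    constructor
    · intro g hg
      rw [coeff_ofPart] at hg
      by_cases h : (ofLex g).1 = 0
      · rw [if_pos h] at hg
        refine ⟨by rw [h]; exact dvd_zero _, ?_⟩
        exact mem_lauS.1 (a.2.1 _ hg)
      · rw [if_neg h] at hg
        exact absurd rfl hg
    · intro g
      rw [coeff_ofPart]
      split_ifs
      · exact a.2.2 _
      · exact Subalgebra.zero_mem _⟩

/-- The residue of a scalar of `K'`. -/
noncomputable def resScal (c : Scal A (upS ζ hζ)) : Scal A (lauS K m) :=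
  ⟨part 0 c.1, by
    constructor
    · intro q hq
      exact mem_lauS.2 (c.2.1 _ hq).2
    · intro q
      exact c.2.2 _⟩

variable (hζ) in
/-- The residue data of the level-up ring. -/
noncomputable def resD : KeyOne.ResData (Scal A (upS ζ hζ)) (Up A ζ) (Scal A (lauS K m)) (Lau K A)
    where
  v := vU A ζ
  res := part 0
  res_add _ _ _ _ := rfl
  res_mul x y hx hy := by
    have h := part_mul (j1 := 0) (j2 := 0) (x := x) (y := y) (by simpa using hx) (by simpa using hy)
    rw [add_zero, zpow_zero, theta_one] at h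
    exact h
  res_one := part_zero_one
  res_ker x hx := by
    constructor
    · intro h
      have h1 : (((1 : ℤ)) : WithTop ℤ) ≤ vU A ζ x := by
        rw [le_vU_iff]
        intro g hg
        have h2 : ((0 : ℤ) : WithTop ℤ) ≤ vU A ζ x := by simpa using hx
        have h3 := le_vU_iff.1 h2 g hg
        have h4 : (ofLex g).1 ≠ 0 := by
          intro h5
          apply hg
          have h6 : (part 0 x).coeff (ofLex g).2 = 0 := by rw [h]; rfl
          rw [coeff_part, ← h5] at h6
          exact h6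
        omega
      refine lt_of_lt_of_le ?_ h1
      exact_mod_cast Int.zero_lt_one
    · intro h
      ext q
      rw [coeff_part]
      apply THS.coeff_eq_zero_of_lt_val (π := fstHom) (hπ := fstHom_mono)
      exact h
  res_scalar c _ := by
    refine ⟨resScal c, ?_⟩
    have : c • (1 : Up A ζ) = c.1 := by
      rw [Scal.smul_def, mul_one]
    rw [this]
    rfl
  lift_scalar a := by
    refine ⟨liftScal a, ?_, ?_⟩
    · have : liftScal (hζ := hζ) a • (1 : Up A ζ) = ofPart 0 a.1 := by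
        rw [Scal.smul_def, mul_one]
        rfl
      rw [this]
      have := le_vU_ofPart (ζ := ζ) 0 a.1
      simpa using this
    · have : liftScal (hζ := hζ) a • (1 : Up A ζ) = ofPart 0 a.1 := by
        rw [Scal.smul_def, mul_one]
        rfl
      rw [this, part_ofPart]
      rfl

/-- The central monomial `s'^{j} s^{K}`, `m ∣ j, K`. -/
noncomputable def tS (g : ℤ ×ₗ ℤ) (hg : g ∈ (upS ζ hζ).Γ) : Scal A (upS ζ hζ) :=
  ⟨mono g 1, by
    classical
    constructor
    · intro h hh
      rw [coeff_mono] at hh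
      by_cases e : h = g
      · rw [e]
        exact hg
      · rw [if_neg e] at hh
        exact absurd rfl hh
    · intro h
      rw [coeff_mono]
      split_ifs
      · exact Subalgebra.one_mem _
      · exact Subalgebra.zero_mem _⟩

/-- The part of `s'`-order `a`, `m ∣ a`, of an element of `F` is in the residue algebra. -/
theorem part_mem_resAlg (F : Subalgebra (Scal A (upS ζ hζ)) (Up A ζ)) {x : Up A ζ} (hx : x ∈ F)
    {a : ℤ} (ha : (m : ℤ) ∣ a) (hv : (a : WithTop ℤ) ≤ vU A ζ x) :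
    part a x ∈ (resD hζ).resAlg F := by
  have hg : (toLex (-a, (0 : ℤ)) : ℤ ×ₗ ℤ) ∈ (upS ζ hζ).Γ :=
    ⟨(dvd_neg).2 ha, dvd_zero _⟩
  let t := tS (A := A) (toLex (-a, (0 : ℤ))) hg
  have ht : t • x = mono (toLex (-a, (0 : ℤ))) 1 * x := rfl
  refine ⟨t • x, F.smul_mem hx t, ?_, ?_⟩
  · show 0 ≤ vU A ζ (t • x)
    rw [ht]
    have h1 : ((-a : ℤ) : WithTop ℤ) ≤ vU A ζ (mono (toLex (-a, (0 : ℤ))) 1 : Up A ζ) := by
      classical
      rw [le_vU_iff]
      intro g hg
      rw [coeff_mono] at hg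
      by_cases e : g = toLex (-a, (0 : ℤ))
      · rw [e]
        exact le_refl _
      · rw [if_neg e] at hg
        exact absurd rfl hg
    have h2 := val_ge_mul h1 hv
    simpa using h2
  · show part 0 (t • x) = part a x
    rw [ht]
    ext q
    rw [coeff_part, coeff_part]
    have h1 := coeff_mono_mul (toLex (-a, (0 : ℤ))) (1 : A) x (toLex (a, q))
    have e1 : (toLex (-a, (0 : ℤ)) : ℤ ×ₗ ℤ) + toLex (a, q) = toLex (0, q) := by
      show toLex (-a + a, 0 + q) = toLex (0, q)
      rw [neg_add_cancel, zero_add]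
    rw [e1] at h1
    rw [h1, twist_apply, one_mul]
    have h2 : ζ ^ ((ofLex (toLex (-a, (0 : ℤ)))).1 * (ofLex (toLex (a, q))).2) = 1 :=
      zpow_eq_one_of_dvd hζ (Dvd.dvd.mul_right ((dvd_neg).2 ha) _)
    rw [h2]
    simp

/-- The value is exact when the part is nonzero. -/
theorem vU_eq_of_part_ne {x : Up A ζ} {j : ℤ} (h : (j : WithTop ℤ) ≤ vU A ζ x)
    (h0 : part j x ≠ 0) : vU A ζ x = (j : WithTop ℤ) := by
  apply le_antisymm _ h
  have hx : x ≠ 0 := by
    rintro rfl
    apply h0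
    rfl
  obtain ⟨q, hq⟩ : ∃ q, (part j x).coeff q ≠ 0 := by
    by_contra hcon
    push Not at hcon
    apply h0
    ext q
    exact hcon q
  have h1 := ord_le (x := x) (h := toLex (j, q)) hq
  rw [vU, THS.val_of_ne hx]
  exact WithTop.coe_le_coe.2 (fstHom_mono h1)

end KeyHahn

end Crest.Agent.Kurosh
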