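/-
S0270 (Kurosh), blueprint v3: the top level theorems, the contract between the modules.
THIS FILE HOLDS `sorry`: never import it from a module. Each module imports `PlanDefs` and proves one
of these theorems with EXACTLY this statement (same hypotheses), under its own namespace; `Assemble.lean`
will glue them (see `all_S` below for the induction).
-/
import Crest.Agent.Kurosh.AlgLater

set_option autoImplicit false

namespace Crest.Agent.Kurosh.Plan

open Hensel State Module LU LU.Tw0 LU.Tw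
open _root_.Crest.Agent.Kurosh.Inv
open _root_.Crest.Agent.Kurosh.Inv.St

variable [Tw0] [Tw] {F : Subfield U} [CentF F]

/-! ### The induction -/

/-- trivial: `𝕂(0)=0` -/
theorem orc_zero : Orc F 0 := by
  sorry

/-- glue, §J(l) -/
theorem orc_succ (l : ℕ) (h1 : Orc F l) (h2 : Val F l l) (h3 : KeyS F l) (h4 : LiftS F l) :
    Orc F (l + 1) := by
  sorry

/-- the part of §J independent of the index: V1, V2, dvd, qbd, V8, and the Smooth arithmetic -/
theorem val_zero (r' : ℕ) : Val F 0 r' := by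
  sorry

/-- §I, first half -/
theorem ub_of (l : ℕ) (h1 : Orc F l) (h2 : Val F l l) : UBS F l := by
  sorry

/-- §I -/
theorem key_of (l : ℕ) (h1 : Orc F l) (h2 : Val F l l) : KeyS F l := by
  sorry

/-- §L, Steps 1-4 with `Ĝ = 0` -/
theorem tight_of (l : ℕ) (h1 : Orc F l) (h2 : Val F l l) (h3 : KeyS F l) : TightS F l := by
  sorry

/-- §L -/
theorem lift_of (l : ℕ) (h1 : Orc F l) (h2 : Val F l l) (h3 : KeyS F l) : LiftS F l := by
  sorry

/-- §J(a)-(k) for the index `l` at `X`. -/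
theorem val_succ (l r' : ℕ) (hl : l < r') (h1 : Orc F l) (h2 : Val F l l) (h3 : Val F l r')
    (h4 : KeyS F l) (h5 : TightS F l) (h6 : UBS F l) : Val F (l + 1) r' := by
  sorry

/-- The conclusion of the induction. -/
theorem all_S : ∀ l, Orc F l ∧ (∀ r', l ≤ r' → Val F l r') := by
  intro l
  induction l with
  | zero => exact ⟨orc_zero, fun r' _ => val_zero r'⟩
  | succ l ih =>
    obtain ⟨h1, h2⟩ := ih
    have hll := h2 l le_rfl
    have hk := key_of l h1 hll
    have ht := tight_of l h1 hll hk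
    have hu := ub_of l h1 hll
    have hL := lift_of l h1 hll hk
    exact ⟨orc_succ l h1 hll hk hL, fun r' hr =>
      val_succ l r' (by omega) h1 hll (h2 r' (by omega)) hk ht hu⟩

/-- Existence of admissible pairs in the line-open sets (§E, E2 + V5, with `K` infinite). -/
theorem exists_adm (Ls : Lst F) (n : ℕ) [Fact (F ≤ Kn n)] (ρ : Stt n) (l r : ℕ)
    (S : ℕ → Set (An n)) (TT : Submodule (Kn n) (Fin 2 → An n))
    (h : Ctx F Ls n ρ l r S TT) :
    ∃ t1 t2, Adm (pt F n ρ Ls.a) l TT t1 t2 := by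
  sorry

/-- Existence of the fresh exact level-up from any partial solution (F + Euler). -/
theorem exists_fresh (Ls : Lst F) (n : ℕ) [Fact (F ≤ Kn n)] (ρ : Stt n) (r' r : ℕ)
    (S : ℕ → Set (An n)) (TT TT0 : Submodule (Kn n) (Fin 2 → An n))
    (h : Ctx F Ls n ρ r' r S TT) (t1 t2 : Fin 2 → An n) (hA : Adm (pt F n ρ Ls.a) r' TT t1 t2)
    (hT : TT ≤ TT0) (hT0 : TT0 ≤ (pt F n ρ Ls.a).T r')
    (hO : Orc F r') (J : ℕ) (hJ : 2 ≤ J) (X0 : Stt (n + 1)) (g0 : ℕ → An (n + 1))
    (h0 : (lv n).lev.PSol (pt F n ρ Ls.a) r' (J + 1) t1 t2 X0 g0) :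
    ∃ (X : Stt (n + 1)) (g : ℕ → An (n + 1)) (TTX : Submodule (Kn (n + 1)) (Fin 2 → An (n + 1))),
      (∀ J', (lv n).lev.PSol (pt F n ρ Ls.a) r' J' t1 t2 X g) ∧
      (∀ v, X v - X0 v ∈ (lv n).lev.Φ.fil J) ∧
      (∀ i, g i - g0 i ∈ (lv n).lev.Φ.fil J) ∧
      Fresh F Ls n ρ r' t1 t2 TT0 X TTX := by
  sorry

/-- **Exploration** (§K): treat one more word `b`. -/
theorem explore (Ls : Lst F) (n : ℕ) [Fact (F ≤ Kn n)] (ρ : Stt n) (k : ℕ) (S : ℕ → Set (An n))
    (TT : Submodule (Kn n) (Fin 2 → An n)) (h : Ctx F Ls n ρ k k S TT)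
    (b : FreeAlgebra F (Fin 2)) :
    ∃ (F' : Subfield U) (_ : CentF F') (_ : Fact (F ≤ F')) (s : Finset U)
      (_ : F' = F ⊔ Subfield.closure (s : Set U))
      (Ls' : Lst F') (n' : ℕ) (_ : Fact (F' ≤ Kn n')) (ρ' : Stt n') (k' : ℕ)
      (S' : ℕ → Set (An n')) (TT' : Submodule (Kn n') (Fin 2 → An n')),
      n < n' ∧ k ≤ k' ∧ Above ⟨n, ρ⟩ ⟨n', ρ'⟩ ∧ Ctx F' Ls' n' ρ' k' k' S' TT' ∧
      Transport.ListAgree Ls Ls' k ∧
      AlgLater F' n' ρ' k' Ls' (Transport.tr b) := by
  sorry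

/-- **Main** (§M): the run of the construction and the limit, using `Limit.kurosh_final`. -/
theorem main :
    ∃ (D : Type) (_ : DivisionRing D), Countable D ∧ CharZero D ∧
      Algebra.IsAlgebraic (Subring.center D) D ∧
      (∃ x y : D, Algebra.adjoin (Subring.center D) ({x, y} : Set D) = ⊤) ∧
      ¬ FiniteDimensional (Subring.center D) D := by
  sorry

end Crest.Agent.Kurosh.Plan
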