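/-
S0270 (Kurosh), blueprint v3 §J(c), §J(f): the wiring on a level-up, from the frame of `ValA`
(helper14). Inputs: `Frm` at `k`, `Valid` at `ρ` with prefix `k`, `Adm`, `Valid` at `X` with prefix
`l < k`, the clauses `m² dim 𝒫_u(ρ) ≤ dim 𝒫_u(X)` and the tight clause for `u < l`.
-/
import Crest.Agent.Kurosh.ValA
import Crest.Agent.Kurosh.ValCL
import Crest.Agent.Kurosh.ValD

set_option autoImplicit false
set_option linter.unusedSectionVars false

namespace Crest.Agent.Kurosh.ValC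

open Module Lead State LU VLead
open _root_.Crest.Agent.Kurosh.Inv
open _root_.Crest.Agent.Kurosh.Inv.St

variable {F K A K' R : Type*} [Field F] [Field K] [DivisionRing A] [Algebra F K] [Algebra K A]
  [Algebra F A] [IsScalarTower F K A] [FiniteDimensional K A]
  [Field K'] [DivisionRing R] [Algebra F K'] [Algebra K' R] [Algebra F R] [IsScalarTower F K' R]
  [FiniteDimensional K' R]
  [Algebra K R] [Algebra K K'] [IsScalarTower K K' R] {τ : A →ₗ[K] K}
  {L : Lv K A K' R τ} {P : Pt F K A (Fin 2)} {P' : Pt F K' R (Fin 2)}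

lemma card_classes (L : Lv K A K' R τ) : Fintype.card (Fin L.m × Fin L.m) = L.m ^ 2 := by
  simp [pow_two]

/-- The `K`-level `c g` on a level-up is `L.c`, the hypothesis `h < g ⇒ c_h = 0` is `g ≤ v`. -/
lemma forall_lt_of_le {x : R} {g : GLv} (h : (g : WithTop GLv) ≤ L.leadK.val x) :
    ∀ a, a < g → L.c a x = 0 := fun a ha => L.le_vK_iff.1 h a ha

section Frame

variable [IsScalarTower F K R] [CharZero K] {k l r : ℕ} {t1 t2 : Fin 2 → A} {g : ℕ → R} {N : ℕ} {Rc : ℕ → Rec}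
  {Q : ℕ → Polynomial F} {S : ℕ → Set A} {TT : Submodule K (Fin 2 → A)}

/-- **§J(a)→§J(c)**: the `KLead` hypothesis of `ValC`, from the frame of `ValA`. -/
theorem klead_of_frm (h : ValA.Frm L P P' k t1 t2 g) (hl : l ≤ k)
    (hV : Valid P N Rc Q k r S TT) (hA : Adm P k TT t1 t2) :
    KLead P P' L.leadK (centLat L.m : Set GLv) l TT := by
  intro c' hc' e he
  have he' : ∀ i, ∀ h, h < e → L.c h (c' i) = 0 := fun i => forall_lt_of_le (he i)
  exact ⟨h.KK_lead hl hc' e he', fun hne => h.KK_lead_IIT hl hc' e he' hne hV hA⟩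

/-- The frame at `l < k` gives `u = g l`, a `1`-unit conjugating `β_l(X)` to `β_l(ρ)`. -/
theorem clead_of_over (hO : Over P P' L k) (hl : l < k) : CLead P P' L.leadK l := by
  obtain ⟨u, hu, hH⟩ := hO.frame l hl
  exact clead_of_frame hu hH

/-- **§J(c), `AnnHyp`.** -/
theorem annHyp_of_frm (hP : ∀ x, P.τ x = τ x) (hP' : ∀ x, P'.τ x = L.τ' x)
    (h : ValA.Frm L P P' k t1 t2 g) (hl : l < k)
    (hV : Valid P N Rc Q k r S TT) (hA : Adm P k TT t1 t2)
    {N' : ℕ} {Q' : ℕ → Polynomial F} {r'' : ℕ} {S' : ℕ → Set R} {TT' : Submodule K' (Fin 2 → R)}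
    (hVX : Valid P' N' Rc Q' l r'' S' TT')
    (hPP : ∀ u < l, L.m ^ 2 * finrank K (PPl P S u) ≤ finrank K' (PPl P' S' u))
    (htight : ∀ u < l, finrank K' (RR P' S' u) = finrank K' (P'.Mov u) + (Rc u).q) :
    AnnHyp (P := P) (P' := P') (D := L.leadK) (Λ := (centLat L.m : Set GLv))
      (ρ := Fin L.m × Fin L.m) S N Rc Q l k r TT := by
  have H := hyp_of_Lv L P P' hP hP'
  have K0 := klead_of_frm h hl.le hV hA
  have K1 := klead_of_frm h (l := l + 1) hl hV hA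
  refine ⟨hV, hl, K1, K0, ?_⟩
  refine (exact_KK H hV hl.le hVX ?_ htight K0).1
  intro u hu
  rw [card_classes]
  exact hPP u hu

/-- `β_l(X) ≡ β_l(ρ)` from the frame: `H0`, `Hc` of `ValD.DE`. -/
theorem vl_beta_of_over (hO : Over P P' L k) (hl : l < k) : VL L (P'.β l) 0 (P.β l) := by
  obtain ⟨u, hu, hH⟩ := hO.frame l hl
  have hu0 : u ≠ 0 := hu.ne_zero one_ne_zero
  have hui := vl_inv hu
  have h1 : P'.β l = u * L.lev.inc (P.β l) * u⁻¹ := by
    rw [← hH, mul_assoc, mul_inv_cancel₀ hu0, mul_one]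
  rw [h1]
  have h2 := (hu.mul_zero_left (VL_inc L (P.β l))).mul_zero_left hui
  simpa using h2

/-- Everything §J(c), §J(f) give at a level-up. -/
structure JC (L : Lv K A K' R τ) (P : Pt F K A (Fin 2)) (P' : Pt F K' R (Fin 2)) (l : ℕ)
    (S : ℕ → Set A) (N : ℕ) (Rc : ℕ → Rec) (Q : ℕ → Polynomial F) (k r : ℕ)
    (TT : Submodule K (Fin 2 → A)) (S' : ℕ → Set R) : Prop where
  /-- the input of the lemmas of `ValC` -/
  hyp : Hyp P P' L.leadK (centLat L.m : Set GLv) L.eK (r00 L)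
  ann : AnnHyp (P := P) (P' := P') (D := L.leadK) (Λ := (centLat L.m : Set GLv))
      (ρ := Fin L.m × Fin L.m) S N Rc Q l k r TT
  cent : CLead P P' L.leadK l
  /-- the exact count of `dim 𝕂/𝕀` at `ρ` -/
  qsharp : finrank K (AdmExist.MMT P l TT) = qS Rc l
  /-- equality of the dimensions of `𝒫_u` below `l` -/
  dimPP : ∀ u < l, finrank K' (PPl P' S' u) = L.m ^ 2 * finrank K (PPl P S u)
  /-- the lead of `𝔸_l(X)` -/
  leadAnn : ∀ (g : GLv) {a : A}, a ∈ L.leadK.lead g (P'.Ann l) →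
    a ∈ P.Ann l ∧ (g ∉ centLat L.m → a ∈ PPl P S l)
  /-- (LM), non-central monomials -/
  LM : ∀ g : GLv, g ∉ centLat L.m → RR P S l ≤ L.leadK.lead g (P'.Mov l)
  /-- (LM), all monomials -/
  LM0 : ∀ g : GLv, P.Mov l ≤ L.leadK.lead g (P'.Mov l)
  /-- §J(f) -/
  rrLe : ∀ S'' : ℕ → Set R, L.m ^ 2 * finrank K (PPl P S l) ≤ finrank K' (PPl P' S'' l) →
    finrank K' (RR P' S'' l) ≤ finrank K' (P'.Mov l) + (Rc l).q
  /-- `β_l(X) ≡ β_l(ρ)` -/
  β_vl : VL L (P'.β l) 0 (P.β l)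

/-- **§J(c), §J(f) on a level-up, all at once.** -/
theorem jc_of_frm (hP : ∀ x, P.τ x = τ x) (hP' : ∀ x, P'.τ x = L.τ' x)
    (h : ValA.Frm L P P' k t1 t2 g) (hO : Over P P' L k) (hl : l < k)
    (hV : Valid P N Rc Q k r S TT) (hA : Adm P k TT t1 t2)
    {N' : ℕ} {Q' : ℕ → Polynomial F} {r'' : ℕ} {S' : ℕ → Set R} {TT' : Submodule K' (Fin 2 → R)}
    (hVX : Valid P' N' Rc Q' l r'' S' TT')
    (hPP : ∀ u < l, L.m ^ 2 * finrank K (PPl P S u) ≤ finrank K' (PPl P' S' u))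
    (htight : ∀ u < l, finrank K' (RR P' S' u) = finrank K' (P'.Mov u) + (Rc u).q) :
    JC L P P' l S N Rc Q k r TT S' := by
  have H := hyp_of_Lv L P P' hP hP'
  have K0 := klead_of_frm h hl.le hV hA
  have A' := annHyp_of_frm hP hP' h hl hV hA hVX hPP htight
  have CL := clead_of_over hO hl
  have hE := exact_KK H hV hl.le hVX (by
    intro u hu
    rw [card_classes]
    exact hPP u hu) htight K0
  refine ⟨H, A', CL, hE.2.1, ?_, fun g a ha => Ann_lead H A' g ha, ?_, ?_, ?_,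
    vl_beta_of_over hO hl⟩
  · intro u hu
    rw [hE.2.2 u hu, card_classes]
  · intro g hg z hz
    exact exists_Mov_lead_R H A' CL hg hz
  · intro g z hz
    exact exists_Mov_lead_Mov H A' CL g hz
  · intro S'' hS''
    refine finrank_RR_le H A' ?_
    rw [card_classes]
    exact hS''

open ValD in
/-- (LM) for the package `ValD.DE` over `toKD L`. -/
theorem JC.LM_KD {L : Lv K A K' R τ} {S' : ℕ → Set R} (J : JC L P P' l S N Rc Q k r TT S') (g₁ : GLv)
    (hg : (toKD L).cl g₁ ≠ 0) : RR P S l ≤ (toKD L).ld g₁ (P'.Mov l) :=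
  J.LM g₁ fun hm => hg ((toKD_cl_eq_zero_iff L).2 hm)

open ValD in
/-- (LM) for the package `ValD.DE` over `toKD L`. -/
theorem JC.LM0_KD {L : Lv K A K' R τ} {S' : ℕ → Set R} (J : JC L P P' l S N Rc Q k r TT S') (g₁ : GLv)
    (_hg : (toKD L).cl g₁ = 0) : P.Mov l ≤ (toKD L).ld g₁ (P'.Mov l) :=
  J.LM0 g₁

end Frame

end Crest.Agent.Kurosh.ValC
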