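/-
S0270 (Kurosh), blueprint v3 §H (H2, H4) at the level of `K` (helper14), the part of §J(e) on `𝒫(y')`.

`L : Lv K A K' R τ`, `P`, `P'` the states below and above, `y' ∈ C_l(X)` with lead `y` at a non-central
monomial `g`, `F' = K'[H,y']`, `F⁰ = K[β,y]`, `dim F' = m dim F⁰`.

* `lead_cent`: leads of `C(F')` lie in `C(F⁰)`, and on the line `ℤ g + centLat`;
* `finrank_cent`: `dim C(F') = m dim C(F⁰)`;
* `mem_lead_PPy`: every `p ∈ 𝒫(y)` is a lead of `𝒫(y')` at every multiple of `g`.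
-/
import Crest.Agent.Kurosh.ValCL
import Crest.Agent.Kurosh.DoubleCent

set_option autoImplicit false
set_option linter.unusedSectionVars false

namespace Crest.Agent.Kurosh.ValD2

open Module Lead State LU VLead DoubleCent
open _root_.Crest.Agent.Kurosh.Inv
open _root_.Crest.Agent.Kurosh.Inv.St

variable {F K A K' R : Type*} [Field F] [Field K] [DivisionRing A] [Algebra F K] [Algebra K A]
  [Algebra F A] [IsScalarTower F K A] [FiniteDimensional K A]
  [Field K'] [DivisionRing R] [Algebra F K'] [Algebra K' R] [Algebra F R] [IsScalarTower F K' R]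
  [FiniteDimensional K' R]
  [Algebra K R] [Algebra K K'] [IsScalarTower K K' R] {τ : A →ₗ[K] K}
  (L : Lv K A K' R τ)

/-! ### The line through `g` -/

/-- The exponent of `s'`. -/
noncomputable def jA : GLv →+ ℤ := AddMonoidHom.mk' (fun x => (ofLex x).1) (fun _ _ => rfl)

/-- The exponent of `s`. -/
noncomputable def kA : GLv →+ ℤ := κ.comp (AddMonoidHom.mk' (fun x => (ofLex x).2) (fun _ _ => rfl))

omit [Field K] in
lemma mem_centLat_iff {m : ℕ} {g : GLv} : g ∈ centLat m ↔ (m : ℤ) ∣ jA g ∧ (m : ℤ) ∣ kA g := Iff.rfl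

omit [FiniteDimensional K A] [FiniteDimensional K' R] in
lemma eps_eq (a b : GLv) : eps L a b = L.ζ ^ (jA a * kA b) := rfl

/-- Commuting monomials are on one line. -/
theorem exists_line {g h : GLv} (hg : g ∉ centLat L.m) (hε : eps L h g = eps L g h) :
    ∃ b : ℕ, b < L.m ∧ h - b • g ∈ centLat L.m := by
  classical
  have : Fact L.m.Prime := ⟨L.m_prime⟩
  have h1 : ((L.m : ℤ)) ∣ jA h * kA g - jA g * kA h := by
    have e : L.ζ ^ (jA h * kA g) = L.ζ ^ (jA g * kA h) := hε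
    rw [← L.ζ_prim.zpow_eq_one_iff_dvd, zpow_sub₀ L.ζ_ne, e, div_self (zpow_ne_zero _ L.ζ_ne)]
  have h2 := (ZMod.intCast_zmod_eq_zero_iff_dvd _ _).2 h1
  push_cast at h2
  set a : ZMod L.m := ((jA g : ℤ) : ZMod L.m) with ha
  set c : ZMod L.m := ((kA g : ℤ) : ZMod L.m) with hc
  set a' : ZMod L.m := ((jA h : ℤ) : ZMod L.m) with ha'
  set c' : ZMod L.m := ((kA h : ℤ) : ZMod L.m) with hc'
  have hne : a ≠ 0 ∨ c ≠ 0 := by
    by_contra hcon
    push Not at hcon
    apply hg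
    exact ⟨(ZMod.intCast_zmod_eq_zero_iff_dvd _ _).1 hcon.1,
      (ZMod.intCast_zmod_eq_zero_iff_dvd _ _).1 hcon.2⟩
  have hb : ∃ b : ZMod L.m, a' = b * a ∧ c' = b * c := by
    rcases hne with h3 | h3
    · refine ⟨a' / a, by field_simp, ?_⟩
      field_simp
      linear_combination -h2
    · have h4 : a' = c' / c * a := by
        field_simp
        linear_combination h2
      exact ⟨c' / c, h4, by field_simp⟩
  obtain ⟨b, hb1, hb2⟩ := hb
  have : NeZero L.m := ⟨L.m_prime.ne_zero⟩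
  refine ⟨b.val, ZMod.val_lt b, ?_⟩
  refine ⟨(ZMod.intCast_zmod_eq_zero_iff_dvd _ _).1 ?_, (ZMod.intCast_zmod_eq_zero_iff_dvd _ _).1 ?_⟩
  · show (((jA (h - b.val • g) : ℤ)) : ZMod L.m) = 0
    rw [map_sub, map_nsmul, nsmul_eq_mul]
    push_cast
    rw [ZMod.natCast_zmod_val, ← ha', ← ha, hb1, sub_self]
  · show (((kA (h - b.val • g) : ℤ)) : ZMod L.m) = 0
    rw [map_sub, map_nsmul, nsmul_eq_mul]
    push_cast
    rw [ZMod.natCast_zmod_val, ← hc', ← hc, hb2, sub_self]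

omit [Field K] in
lemma smul_mem_centLat {m : ℕ} (g : GLv) : m • g ∈ centLat m := by
  refine ⟨?_, ?_⟩
  · show (m : ℤ) ∣ jA (m • g)
    rw [map_nsmul]
    exact ⟨jA g, by simp⟩
  · show (m : ℤ) ∣ kA (m • g)
    rw [map_nsmul]
    exact ⟨kA g, by simp⟩

/-- Multiples of `g` modulo the central lattice. -/
lemma exists_mod (g : GLv) (b : ℕ) : ∃ b' : ℕ, b' < L.m ∧ b • g - b' • g ∈ centLat L.m := by
  refine ⟨b % L.m, Nat.mod_lt _ L.m_prime.pos, ?_⟩
  have h1 : b • g - (b % L.m) • g = (b / L.m) • (L.m • g) := by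
    have h0 : b • g = (L.m * (b / L.m)) • g + (b % L.m) • g := by
      rw [← add_smul, Nat.div_add_mod]
    rw [h0, add_sub_cancel_right, mul_comm, mul_smul]
  rw [h1]
  exact (centLat L.m).nsmul_mem (smul_mem_centLat g) _

/-! ### Subalgebras `F_y`, `𝔏_y` -/

section Alg

variable {F₀ K₀ A₀ : Type*} [Field F₀] [Field K₀] [DivisionRing A₀] [Algebra F₀ K₀] [Algebra K₀ A₀]
  [Algebra F₀ A₀] [IsScalarTower F₀ K₀ A₀] [FiniteDimensional K₀ A₀] (Q : Pt F₀ K₀ A₀ (Fin 2))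

lemma mem_Fy_beta (l : ℕ) (y : A₀) : Q.β l ∈ Fy Q l y := Algebra.subset_adjoin (Or.inl rfl)

lemma mem_Fy_y (l : ℕ) (y : A₀) : y ∈ Fy Q l y := Algebra.subset_adjoin (Or.inr rfl)

/-- An element commuting with `β` and `y` commutes with `F_y`. -/
lemma mem_centDiv_of {l : ℕ} {y a : A₀} (h1 : Q.β l * a = a * Q.β l) (h2 : y * a = a * y) :
    a ∈ centDiv (Fy Q l y) := by
  have h3 : Fy Q l y ≤ Subalgebra.centralizer K₀ ({a} : Set A₀) := by
    refine Algebra.adjoin_le ?_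
    intro z hz
    show z ∈ Subalgebra.centralizer K₀ ({a} : Set A₀)
    rw [Subalgebra.mem_centralizer_iff]
    rintro _ rfl
    rcases hz with rfl | rfl
    · exact h1.symm
    · exact h2.symm
  refine mem_centDiv.2 fun b hb => ?_
  have h4 := h3 hb
  rw [Subalgebra.mem_centralizer_iff] at h4
  exact (h4 a rfl).symm

lemma comm_beta_of_mem_centDiv {l : ℕ} {y a : A₀} (h : a ∈ centDiv (Fy Q l y)) :
    Q.β l * a = a * Q.β l := mem_centDiv.1 h _ (mem_Fy_beta Q l y)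

lemma comm_y_of_mem_centDiv {l : ℕ} {y a : A₀} (h : a ∈ centDiv (Fy Q l y)) : y * a = a * y :=
  mem_centDiv.1 h _ (mem_Fy_y Q l y)

/-- `F_y` is commutative. -/
lemma Fy_le_centDiv {l : ℕ} {y : A₀} (hy : Q.β l * y = y * Q.β l) :
    Fy Q l y ≤ centDiv (Fy Q l y) := by
  intro a ha
  have h1 : Fy Q l y ≤ Subalgebra.centralizer K₀ ({Q.β l} : Set A₀) := by
    refine Algebra.adjoin_le ?_
    intro z hz
    show z ∈ Subalgebra.centralizer K₀ ({Q.β l} : Set A₀)
    rw [Subalgebra.mem_centralizer_iff]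
    rintro _ rfl
    rcases hz with rfl | rfl
    · rfl
    · exact hy
  have h2 : Fy Q l y ≤ Subalgebra.centralizer K₀ ({y} : Set A₀) := by
    refine Algebra.adjoin_le ?_
    intro z hz
    show z ∈ Subalgebra.centralizer K₀ ({y} : Set A₀)
    rw [Subalgebra.mem_centralizer_iff]
    rintro _ rfl
    rcases hz with rfl | rfl
    · exact hy.symm
    · rfl
  have h3 := h1 ha
  have h4 := h2 ha
  rw [Subalgebra.mem_centralizer_iff] at h3 h4
  exact mem_centDiv_of Q (h3 _ rfl) (h4 _ rfl)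

/-- `𝔏_y ≤ F_y`. -/
lemma Ly_le_Fy {l : ℕ} {y : A₀} : Ly Q l y ≤ Fy Q l y := by
  refine Algebra.adjoin_le ?_
  rintro _ ⟨z, hz, rfl⟩
  exact mul_mem (inv_mem_subalgebra _ (mem_Fy_y Q l y)) hz.1

/-- `𝒫(y)` is the orthogonal of `y 𝔏_y` in `C(F_y)`. -/
theorem finrank_PPy (h1 : Q.τ 1 = 1) {l : ℕ} {y : A₀} (hy0 : y ≠ 0)
    (hy : Q.β l * y = y * Q.β l) :
    finrank K₀ (PPy Q l y) + finrank K₀ (Ly Q l y) = finrank K₀ (centDiv (Fy Q l y)) := by
  classical
  set C := centDiv (Fy Q l y) with hC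
  let Sy : Submodule K₀ A₀ :=
    (Subalgebra.toSubmodule (Ly Q l y)).map (LinearMap.mulLeft K₀ y)
  have hS : Sy ≤ Subalgebra.toSubmodule C := by
    rintro _ ⟨f, hf, rfl⟩
    have h2 : y * f ∈ Fy Q l y := mul_mem (mem_Fy_y Q l y) (Ly_le_Fy Q hf)
    exact Fy_le_centDiv Q hy h2
  have h3 := TestCore.finrank_perpR Q.τ_comm h1 C hS
  have h4 : finrank K₀ Sy = finrank K₀ (Ly Q l y) :=
    (Submodule.equivMapOfInjective (LinearMap.mulLeft K₀ y)
      (fun a b hab => mul_left_cancel₀ hy0 hab) (Subalgebra.toSubmodule (Ly Q l y))).finrank_eq.symm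
  have h5 : TestCore.perpR Q.τ (Subalgebra.toSubmodule C) Sy = PPy Q l y := by
    ext p
    constructor
    · rintro ⟨hp, hp'⟩
      refine ⟨(comm_beta_of_mem_centDiv Q hp).symm, (comm_y_of_mem_centDiv Q hp).symm, fun f hf => ?_⟩
      exact hp' _ ⟨f, hf, rfl⟩
    · rintro ⟨hp1, hp2, hp3⟩
      refine ⟨mem_centDiv_of Q hp1.symm hp2.symm, ?_⟩
      rintro _ ⟨f, hf, rfl⟩
      exact hp3 f hf
  rw [h5, h4] at h3
  exact h3

end Alg

/-! ### Leads -/

variable (P : Pt F K A (Fin 2)) (P' : Pt F K' R (Fin 2))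

variable {L P P'}

/-- **H2.** Leads of `C(F')`. -/
theorem lead_cent {l : ℕ} {y : A} {y' : R} {g : GLv} (hH : VL L (P'.β l) 0 (P.β l))
    (hy' : VL L y' g y) (hy0 : y ≠ 0) (hg : g ∉ centLat L.m)
    (hF0y : ∃ f ∈ Fy P' l y', VL L f 0 y) {x : R} (hx : x ∈ centDiv (Fy P' l y')) {h : GLv}
    (hh : (h : WithTop GLv) ≤ L.vK x) :
    L.c h x ∈ centDiv (Fy P l y) ∧ (L.c h x ≠ 0 → ∃ b : ℕ, b < L.m ∧ h - b • g ∈ centLat L.m) := by
  set a := L.c h x with ha
  have hV : VL L x h a := (ValC.vl_iff L).2 ⟨hh, rfl⟩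
  have h1 : P.β l * a = a * P.β l := by
    have h2 := comm_beta_of_mem_centDiv P' hx
    have h3 := hH.mul_zero_left hV
    have h4 := hV.mul_zero_right hH
    rw [h2] at h3
    exact h3.eq.symm.trans h4.eq
  have h2 : y * a = a * y := by
    obtain ⟨f, hf, hfy⟩ := hF0y
    have h3 := mem_centDiv.1 hx f hf
    have h4 := hfy.mul_zero_left hV
    have h5 := hV.mul_zero_right hfy
    rw [h3] at h4
    exact h4.eq.symm.trans h5.eq
  refine ⟨mem_centDiv_of P h1 h2, fun ha0 => ?_⟩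
  have h3 := comm_y_of_mem_centDiv P' hx
  have h4 := hy'.mul hV
  have h5 := hV.mul hy'
  rw [h3, add_comm g h] at h4
  have h6 : eps L g h • (y * a) = eps L h g • (a * y) := h4.eq.symm.trans h5.eq
  rw [h2] at h6
  have h7 : a * y ≠ 0 := mul_ne_zero ha0 hy0
  have h8 : (eps L g h - eps L h g) • (a * y) = 0 := by
    rw [sub_smul, h6, sub_self]
  rcases smul_eq_zero.1 h8 with h9 | h9
  · exact exists_line L hg (sub_eq_zero.1 h9).symm
  · exact absurd h9 h7

/-- `dim C(F') = m dim C(F⁰)`. -/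
theorem finrank_cent {l : ℕ} {y : A} {y' : R}
    (hC : ∀ a : A, (∀ x, a * x = x * a) → ∃ c : K, a = algebraMap K A c)
    (hC' : ∀ a : R, (∀ x, a * x = x * a) → ∃ c : K', a = algebraMap K' R c)
    (hdF : finrank K' (Fy P' l y') = L.m * finrank K (Fy P l y)) :
    finrank K' (centDiv (Fy P' l y')) = L.m * finrank K (centDiv (Fy P l y)) := by
  have h1 := finrank_centralizer_mul hC' (Fy P' l y')
  have h2 := finrank_centralizer_mul hC (Fy P l y)
  have h3 := L.finrank_R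
  have hD : 0 < finrank K (Fy P l y) := Module.finrank_pos
  have hm := L.m_pos
  rw [hdF, h3, ← h2] at h1
  have h4 : 0 < L.m * finrank K (Fy P l y) := Nat.mul_pos hm hD
  apply Nat.eq_of_mul_eq_mul_right h4
  rw [h1]
  ring

/-- **H4, upper bound.** Leads of `𝒫(y')`. -/
theorem lead_PPy_le {l : ℕ} {y : A} {y' : R} {g : GLv} (hP : ∀ x, P.τ x = τ x)
    (hP' : ∀ x, P'.τ x = L.τ' x) (hH : VL L (P'.β l) 0 (P.β l))
    (hy' : VL L y' g y) (hy0 : y ≠ 0) (hg : g ∉ centLat L.m)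
    (hF0y : ∃ f ∈ Fy P' l y', VL L f 0 y)
    (hLL : ∀ (b : ℕ), ∀ ℓ ∈ Ly P l y,
      ℓ ∈ L.leadK.lead (b • g) (Subalgebra.toSubmodule (Ly P' l y')))
    {h : GLv} {a : A} (ha : a ∈ L.leadK.lead h (PPy P' l y')) :
    a ∈ PPy P l y ∧ (a ≠ 0 → ∃ b : ℕ, b < L.m ∧ h - b • g ∈ centLat L.m) := by
  obtain ⟨x, hx, hxh, rfl⟩ := ha
  have hxc : x ∈ centDiv (Fy P' l y') := mem_centDiv_of P' hx.1.symm hx.2.1.symm
  obtain ⟨h1, h2⟩ := lead_cent hH hy' hy0 hg hF0y hxc hxh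
  set a := L.c h x with ha
  refine ⟨⟨(comm_beta_of_mem_centDiv P h1).symm, (comm_y_of_mem_centDiv P h1).symm,
    fun ℓ hℓ => ?_⟩, h2⟩
  change P.τ (a * (y * ℓ)) = 0
  by_cases ha0 : a = 0
  · rw [ha0, zero_mul, map_zero]
  obtain ⟨b, -, hb⟩ := h2 ha0
  -- the monomial opposite to `h + g`
  set w : GLv := -h - g with hw
  obtain ⟨n, hn⟩ : ∃ n, L.m = n + 1 := ⟨L.m - 1, by have := L.m_pos; omega⟩
  set b₂ : ℕ := (L.m - 1) * (b + 1) with hb₂
  have hb₃ : b₂ + (b + 1) = L.m * (b + 1) := by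
    rw [hb₂, hn]
    simp only [Nat.add_sub_cancel]
    ring
  have hsub : w - b₂ • g ∈ centLat L.m := by
    have h3 : (L.m * (b + 1)) • g = b₂ • g + b • g + g := by
      rw [← hb₃, add_smul, add_smul, one_smul, add_assoc]
    have h4 : w - b₂ • g = -(h - b • g) - (L.m * (b + 1)) • g := by
      rw [h3, hw]
      abel
    rw [h4]
    refine sub_mem (neg_mem hb) ?_
    rw [mul_comm, mul_smul]
    exact (centLat L.m).nsmul_mem (smul_mem_centLat g) _
  have h5 : ℓ ∈ L.leadK.lead w (Subalgebra.toSubmodule (Ly P' l y')) := by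
    rw [L.leadK_eq_of_sub_mem hsub]
    exact hLL b₂ ℓ hℓ
  obtain ⟨f, hf, hfw, hfl⟩ := h5
  have hfV : VL L f w ℓ := (ValC.vl_iff L).2 ⟨hfw, hfl⟩
  have h6 := hy'.mul hfV
  have h7 := (ValC.vl_iff L).1 h6
  have h8 : P'.τ (x * (y' * f)) = 0 := hx.2.2 f hf
  rw [hP'] at h8
  have h9 : h + (g + w) = 0 := by
    rw [hw]
    abel
  have h10 := L.pair_zeroK h9 hxh h7.1 h8
  rw [h7.2, mul_smul_comm, map_smul, smul_eq_mul] at h10
  rw [hP]
  exact (mul_eq_zero.1 h10).resolve_left (L.ε.ne_zero _ _)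

/-- **H4.** Every element of `𝒫(y)` is a lead of `𝒫(y')` at every multiple of `g`. -/
theorem mem_lead_PPy {l : ℕ} {y : A} {y' : R} {g : GLv} (hP : ∀ x, P.τ x = τ x)
    (hP' : ∀ x, P'.τ x = L.τ' x) (hτ1 : P.τ 1 = 1) (hτ1' : P'.τ 1 = 1)
    (hC : ∀ a : A, (∀ x, a * x = x * a) → ∃ c : K, a = algebraMap K A c)
    (hC' : ∀ a : R, (∀ x, a * x = x * a) → ∃ c : K', a = algebraMap K' R c)
    (hH : VL L (P'.β l) 0 (P.β l)) (hyc : P.β l * y = y * P.β l)
    (hyc' : P'.β l * y' = y' * P'.β l)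
    (hy' : VL L y' g y) (hy0 : y ≠ 0) (hg : g ∉ centLat L.m)
    (hF0y : ∃ f ∈ Fy P' l y', VL L f 0 y)
    (hdF : finrank K' (Fy P' l y') = L.m * finrank K (Fy P l y))
    (hLL : ∀ (b : ℕ), ∀ ℓ ∈ Ly P l y,
      ℓ ∈ L.leadK.lead (b • g) (Subalgebra.toSubmodule (Ly P' l y')))
    (hdL : finrank K' (Ly P' l y') ≤ L.m * finrank K (Ly P l y)) (b : ℕ) :
    PPy P l y ≤ L.leadK.lead (b • g) (PPy P' l y') := by
  classical
  have hy'0 : y' ≠ 0 := hy'.ne_zero hy0
  set W' := PPy P' l y' with hW'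
  set a := finrank K (PPy P l y) with ha
  let S : Finset (Fin L.m × Fin L.m) :=
    Finset.univ.image fun b : Fin L.m => L.classK ((b : ℕ) • g)
  have hcard : S.card ≤ L.m := by
    have := Finset.card_image_le (s := (Finset.univ : Finset (Fin L.m)))
      (f := fun b : Fin L.m => L.classK ((b : ℕ) • g))
    simpa using this
  have hle : ∀ r, L.leadK.lead (L.eK r) W' ≤ PPy P l y := fun r x hx =>
    (lead_PPy_le hP hP' hH hy' hy0 hg hF0y hLL hx).1
  have hout : ∀ r, r ∉ S → finrank K (L.leadK.lead (L.eK r) W') = 0 := by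
    intro r hr
    rw [Submodule.finrank_eq_zero, eq_bot_iff]
    intro x hx
    by_contra hx0
    obtain ⟨b', hb', hb''⟩ := (lead_PPy_le hP hP' hH hy' hy0 hg hF0y hLL hx).2 hx0
    apply hr
    refine Finset.mem_image.2 ⟨⟨b', hb'⟩, Finset.mem_univ _, ?_⟩
    have := L.classK_eq_iff.2 hb''
    rw [L.classK_eK] at this
    exact this.symm
  have hsum : finrank K' W' = ∑ r ∈ S, finrank K (L.leadK.lead (L.eK r) W') := by
    rw [L.gaussK W']
    symm
    exact Finset.sum_subset (Finset.subset_univ _) fun r _ hr => hout r hr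
  have hdim1 := finrank_PPy P hτ1 hy0 hyc
  have hdim2 := finrank_PPy P' hτ1' hy'0 hyc'
  have hdim3 := finrank_cent (L := L) (P := P) (P' := P') (l := l) (y := y) (y' := y') hC hC' hdF
  have hA : L.m * a ≤ finrank K' W' := by
    have h1 : L.m * finrank K (centDiv (Fy P l y)) = L.m * a + L.m * finrank K (Ly P l y) := by
      rw [← hdim1, Nat.mul_add]
    have h2 : finrank K' W' + finrank K' (Ly P' l y') = L.m * a + L.m * finrank K (Ly P l y) := by
      rw [← h1, ← hdim3]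
      exact hdim2
    omega
  have hsumle : ∑ r ∈ S, finrank K (L.leadK.lead (L.eK r) W') ≤ ∑ _r ∈ S, a :=
    Finset.sum_le_sum fun r _ => Submodule.finrank_mono (hle r)
  have hconst : ∑ _r ∈ S, a = S.card * a := by simp
  have hcard2 : S.card * a ≤ L.m * a := Nat.mul_le_mul_right a hcard
  have heq : ∑ r ∈ S, finrank K (L.leadK.lead (L.eK r) W') = ∑ _r ∈ S, a := by
    apply le_antisymm hsumle
    rw [hconst]
    omega
  have heach := (Finset.sum_eq_sum_iff_of_le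
    (fun r _ => Submodule.finrank_mono (hle r))).1 heq
  have hr : L.classK (b • g) ∈ S := by
    obtain ⟨b', hb', hb''⟩ := exists_mod L g b
    refine Finset.mem_image.2 ⟨⟨b', hb'⟩, Finset.mem_univ _, ?_⟩
    exact (L.classK_eq_iff.2 hb'').symm
  rw [L.leadK_eq_class (b • g) W']
  have h3 := heach _ hr
  exact (Submodule.eq_of_le_of_finrank_eq (hle _) h3).ge

/-- The count: if `𝒫_l(ρ)` is contained in the leads of `𝒫_l(X)` at all classes, then
`m² dim 𝒫_l(ρ) ≤ dim 𝒫_l(X)`. -/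
theorem finrank_ge_of_leads {W : Submodule K' R} {V : Submodule K A}
    (h : ∀ r, V ≤ L.leadK.lead (L.eK r) W) : L.m ^ 2 * finrank K V ≤ finrank K' W := by
  rw [L.gaussK W]
  calc L.m ^ 2 * finrank K V = ∑ _r : Fin L.m × Fin L.m, finrank K V := by
        simp [pow_two]
    _ ≤ _ := Finset.sum_le_sum fun r _ => Submodule.finrank_mono (h r)

end Crest.Agent.Kurosh.ValD2
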