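/-
S0270 (Kurosh), blueprint v3 §J(d),(e) on the tower (helper24): the wrapper of `ValD`.

At a fresh level-up `X` over `ρ`, for the index `l`, given the leads of `Mov_l(X)` (`ValC`), `UBS l`,
`KeyS l` at `X`: the new witnesses `S_l(X)` are good, `m² dim 𝒫_l(ρ) ≤ dim 𝒫_l(X)` and
`Mov_l(X) ≤ R_l(X)`.
-/
import Crest.Agent.Kurosh.ValD
import Crest.Agent.Kurosh.PlanDefs
import Crest.Agent.Kurosh.AdmExist
import Crest.Agent.Kurosh.ValH2

set_option autoImplicit false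
set_option linter.unusedSectionVars false
set_option linter.unusedVariables false

namespace Crest.Agent.Kurosh.ValDL

open Hensel State Module LU LU.Tw0 LU.Tw VLead
open _root_.Crest.Agent.Kurosh.Inv
open _root_.Crest.Agent.Kurosh.Inv.St
open _root_.Crest.Agent.Kurosh.Plan
open _root_.Crest.Agent.Kurosh.ValD

variable [Tw0] [Tw] {F : Subfield U} [CentF F]

/-- Replace the trace of a lead structure by an equal one. -/
noncomputable def castKD {K A K' R Γ : Type*} [Field K] [DivisionRing A] [Algebra K A] [Field K']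
    [DivisionRing R] [Algebra K' R] [AddCommGroup Γ] [LinearOrder Γ] [IsOrderedAddMonoid Γ]
    {τ : A →ₗ[K] K} {τ₁ τ₂ : R →ₗ[K'] K'} {m : ℕ} (D : KD K A K' R Γ τ τ₁ m) (h : τ₁ = τ₂) :
    KD K A K' R Γ τ τ₂ m :=
  { D with
    trace_res := fun y hy => by
      rw [← h]
      exact D.trace_res y hy }

/-- The lead structure at stage `n`. -/
noncomputable def kd (n : ℕ) : KD (Kn n) (An n) (Kn (n + 1)) (An (n + 1)) GLv (τ n) (τ (n + 1)) (lv n).m :=
  castKD (toKD (lv n)) (τ_succ n)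

@[simp] lemma kd_val (n : ℕ) (x : An (n + 1)) : (kd n).val x = (lv n).vK x := rfl
@[simp] lemma kd_c (n : ℕ) (g : GLv) (x : An (n + 1)) : (kd n).c g x = (lv n).c g x := rfl
lemma kd_cl_eq_zero_iff (n : ℕ) {g : GLv} : (kd n).cl g = 0 ↔ g ∈ centLat (lv n).m :=
  clK_eq_zero_iff (lv n)
lemma kd_ld (n : ℕ) (g : GLv) (W : Submodule (Kn (n + 1)) (An (n + 1))) :
    (kd n).ld g W = (lv n).leadK.lead g W := rfl

instance factM (n : ℕ) : Fact (lv n).m.Prime := ⟨(lv n).m_prime⟩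

/-- The data of §J(d),(e). -/
theorem de_of {l r' r : ℕ} (hl : l < r') (h6 : UBS F l) (Ls : Lst F) (n : ℕ) [Fact (F ≤ Kn n)]
    (ρ : Stt n) (S : ℕ → Set (An n)) (TT : Submodule (Kn n) (Fin 2 → An n))
    (hCtx : Ctx F Ls n ρ r' r S TT) (t1 t2 : Fin 2 → An n) (X : Stt (n + 1)) (g : ℕ → An (n + 1))
    (hsol : ∀ J, (lv n).lev.PSol (pt F n ρ Ls.a) r' J t1 t2 X g)
    (S' : ℕ → Set (An (n + 1))) (TTX : Submodule (Kn (n + 1)) (Fin 2 → An (n + 1)))
    (hV' : Valid (pt F (n + 1) X Ls.a) (N (n + 1)) Ls.R Ls.Q l r' S' TTX)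
    (hLM : ∀ g₁ : GLv, g₁ ∉ centLat (lv n).m → RR (pt F n ρ Ls.a) S l ≤
      (lv n).leadK.lead g₁ ((pt F (n + 1) X Ls.a).Mov l))
    (hLM0 : ∀ g₁ : GLv, (pt F n ρ Ls.a).Mov l ≤
      (lv n).leadK.lead g₁ ((pt F (n + 1) X Ls.a).Mov l)) :
    DE (pt F n ρ Ls.a) (pt F (n + 1) X Ls.a) (kd n) l (N n) (Ls.R l) (S l)
      (RR (pt F n ρ Ls.a) S l) := by
  have hV := hCtx.valid
  have hlr : l < r := lt_of_lt_of_le hl hV.le
  have hm := m_big n
  have hNpos := N_pos n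
  have hNlt : N n < (lv n).m := by nlinarith
  have hOv : Over (pt F n ρ Ls.a) (pt F (n + 1) X Ls.a) (lv n) r' :=
    ValH.Over.of_PSol rfl rfl hsol
  have hH := vl_ev (L := lv n) (F := F) hOv.ρ (Ls.a l)
  have hC1 : ∀ a : An n, (∀ x, a * x = x * a) → ∃ c : Kn n, a = algebraMap (Kn n) (An n) c :=
    fun a ha => hV.comm a fun v => ha _
  have hC2 : ∀ a : An (n + 1), (∀ x, a * x = x * a) →
      ∃ c : Kn (n + 1), a = algebraMap (Kn (n + 1)) (An (n + 1)) c :=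
    fun a ha => hV'.comm a fun v => ha _
  refine
    { m3 := by omega
      mN := fun hd => by
        have := Nat.le_of_dvd hNpos hd
        omega
      zeta := ⟨(lv n).ζ, (lv n).ζ_prim⟩
      hN := finrank_eq n
      hN' := by rw [finrank_eq, N_succ]
      hC := hC1
      hC' := hC2
      h1 := hV.one
      h1' := hV'.one
      H0 := ?_
      Hc := hH.eq
      dvd := hV.dvd l hlr
      good := hV.S_good l hl
      big := hV.big l hl
      MovR := hV.mov_le l hl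
      LM := fun g₁ hg₁ => hLM g₁ fun hmem => hg₁ ((kd_cl_eq_zero_iff n).2 hmem)
      LM0 := fun g₁ _ => hLM0 g₁
      UB := fun y' hy' hne => ?_ }
  · exact ((lv n).le_vK_iff).2 hH.lt
  · have hup : UpStep ⟨n, ρ⟩ ⟨n + 1, X⟩ := by
      refine UpStep.mk n ρ X fun v => ?_
      have a1 := (lv n).lev.Φ.anti (Nat.le_succ 1) ((hsol 0).leadX v)
      have a2 := (lv n).lev.mono_mem (t1 v) 0 1
      have a3 := (lv n).lev.mono_mem (t2 v) (lv n).lev.μ₁ 1
      have := add_mem (add_mem a1 a2) a3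
      convert this using 1
      abel
    have hCX : Ctx F Ls (n + 1) X l r' S' TTX :=
      { valid := hV'
        above := fun u hu => (hCtx.above u (lt_of_lt_of_le hu hV.le)).tail hup
        opt := fun u hu => hCtx.opt u (lt_of_lt_of_le hu hV.le) }
    obtain ⟨u1, u2, hAd⟩ := AdmExist.exists_adm Ls (n + 1) X l r' S' TTX hCX
    have h7 := h6 Ls (n + 1) X r' S' TTX hl hCX u1 u2 hAd y' hy' hne
    rw [N_succ] at h7
    exact h7

/-- **§J(d),(e) at `X`.** -/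
theorem J_de {l r' r : ℕ} (hl : l < r') (h4 : KeyS F l) (h6 : UBS F l) (Ls : Lst F) (n : ℕ)
    [Fact (F ≤ Kn n)]
    (ρ : Stt n) (S : ℕ → Set (An n)) (TT : Submodule (Kn n) (Fin 2 → An n))
    (hCtx : Ctx F Ls n ρ r' r S TT) (t1 t2 : Fin 2 → An n) (X : Stt (n + 1)) (g : ℕ → An (n + 1))
    (hsol : ∀ J, (lv n).lev.PSol (pt F n ρ Ls.a) r' J t1 t2 X g)
    (S' : ℕ → Set (An (n + 1))) (TTX : Submodule (Kn (n + 1)) (Fin 2 → An (n + 1)))
    (hV' : Valid (pt F (n + 1) X Ls.a) (N (n + 1)) Ls.R Ls.Q l r' S' TTX)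
    (hLM : ∀ g₁ : GLv, g₁ ∉ centLat (lv n).m → RR (pt F n ρ Ls.a) S l ≤
      (lv n).leadK.lead g₁ ((pt F (n + 1) X Ls.a).Mov l))
    (hLM0 : ∀ g₁ : GLv, (pt F n ρ Ls.a).Mov l ≤
      (lv n).leadK.lead g₁ ((pt F (n + 1) X Ls.a).Mov l)) :
    ∃ Sn : Set (An (n + 1)),
      Sn.Nonempty ∧
      (∀ y' ∈ Sn, Good (pt F (n + 1) X Ls.a) (N (n + 1)) (Ls.R l) l y') ∧
      (∀ y' ∈ Sn, ∃ y ∈ S l, ∃ e : GLv, e ∉ centLat (lv n).m ∧ (lv n).vK y' = (e : WithTop GLv) ∧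
        (lv n).c e y' = y) ∧
      (∀ (e : GLv), ⨆ y ∈ S l, PPy (pt F n ρ Ls.a) l y ≤
        (lv n).leadK.lead e (⨆ y' ∈ Sn, PPy (pt F (n + 1) X Ls.a) l y')) ∧
      (lv n).m ^ 2 * finrank (Kn n) ↥(⨆ y ∈ S l, PPy (pt F n ρ Ls.a) l y) ≤
        finrank (Kn (n + 1)) ↥(⨆ y' ∈ Sn, PPy (pt F (n + 1) X Ls.a) l y') ∧
      (∀ z ∈ (pt F (n + 1) X Ls.a).Mov l, ∀ p ∈ ⨆ y' ∈ Sn, PPy (pt F (n + 1) X Ls.a) l y',
        τ (n + 1) (p * z) = 0) := by
  have E := de_of hl h6 Ls n ρ S TT hCtx t1 t2 X g hsol S' TTX hV' hLM hLM0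
  have hV := hCtx.valid
  have hlr : l < r := lt_of_lt_of_le hl hV.le
  have hG : ∀ y' ∈ newS (pt F n ρ Ls.a) (pt F (n + 1) X Ls.a) (kd n) l (S l),
      Good (pt F (n + 1) X Ls.a) (N (n + 1)) (Ls.R l) l y' := fun y' hy' => by
    rw [N_succ]
    exact E.newS_good hy'
  refine ⟨newS (pt F n ρ Ls.a) (pt F (n + 1) X Ls.a) (kd n) l (S l), ?_, hG, ?_, E.PPl_le_ld,
    E.finrank_PPl_le, ?_⟩
  · obtain ⟨y, hy⟩ := hV.S_ne l hl
    obtain ⟨e, he⟩ := (kd n).cl_surj (1, 0)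
    have hne : (kd n).cl e ≠ 0 := by
      rw [he]
      intro h
      have := congrArg Prod.fst h
      simp at this
    obtain ⟨y', hy', -⟩ := E.exists_lift hy hne
    exact ⟨y', hy'⟩
  · rintro y' ⟨-, y, hy, e, he, hv, hc⟩
    exact ⟨y, hy, e, fun hmem => he ((kd_cl_eq_zero_iff n).2 hmem), hv, hc⟩
  · intro z hz p hp
    have hup : UpStep ⟨n, ρ⟩ ⟨n + 1, X⟩ := by
      refine UpStep.mk n ρ X fun v => ?_
      have a1 := (lv n).lev.Φ.anti (Nat.le_succ 1) ((hsol 0).leadX v)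
      have a2 := (lv n).lev.mono_mem (t1 v) 0 1
      have a3 := (lv n).lev.mono_mem (t2 v) (lv n).lev.μ₁ 1
      have := add_mem (add_mem a1 a2) a3
      convert this using 1
      abel
    have hCX : Ctx F Ls (n + 1) X l r' S' TTX :=
      { valid := hV'
        above := fun u hu => (hCtx.above u (lt_of_lt_of_le hu hV.le)).tail hup
        opt := fun u hu => hCtx.opt u (lt_of_lt_of_le hu hV.le) }
    obtain ⟨u1, u2, hAd⟩ := AdmExist.exists_adm Ls (n + 1) X l r' S' TTX hCX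
    let φ : An (n + 1) →ₗ[Kn (n + 1)] Kn (n + 1) :=
      (τ (n + 1)).comp (LinearMap.mulRight (Kn (n + 1)) z)
    have key : (⨆ y' ∈ newS (pt F n ρ Ls.a) (pt F (n + 1) X Ls.a) (kd n) l (S l),
        PPy (pt F (n + 1) X Ls.a) l y') ≤ LinearMap.ker φ := by
      refine iSup₂_le fun y' hy' p' hp' => ?_
      exact (h4 Ls (n + 1) X r' S' TTX hl hCX u1 u2 hAd y' (hG y' hy')).1 p' hp' z hz
    exact key hp

end Crest.Agent.Kurosh.ValDL
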