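/-
S0270 (Kurosh), blueprint v3 §J(j) (helper14): no drop of the defect.
If `Mov_u ≤ R_u`, `dim e_F(R_u) ≥ Λ` and `dim A_y + q ≤ Λ` (tight test), then `dim R_u ≥ dim Mov_u + q`.
With `Valid.mov_codim`: equality.
-/
import Crest.Agent.Kurosh.AdmExist
import Crest.Agent.Kurosh.InvFacts
import Crest.Agent.Kurosh.TestCore

set_option autoImplicit false
set_option linter.unusedSectionVars false

namespace Crest.Agent.Kurosh.ValJ

open Module State
open _root_.Crest.Agent.Kurosh.Inv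
open _root_.Crest.Agent.Kurosh.Inv.St
open TestCore

variable {F K A : Type*} [Field F] [Field K] [DivisionRing A] [Algebra F K] [Algebra K A]
  [Algebra F A] [IsScalarTower F K A] [FiniteDimensional K A] (P : Pt F K A (Fin 2))

lemma Fy_le_cent {u : ℕ} {y : A} (hy : y ∈ P.Mov u) {f : A} (hf : f ∈ Fy P u y) :
    P.β u * f = f * P.β u := by
  have h1 : Fy P u y ≤ Subalgebra.centralizer K ({P.β u} : Set A) := by
    refine Algebra.adjoin_le ?_
    intro x hx
    show x ∈ Subalgebra.centralizer K ({P.β u} : Set A)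
    rw [Subalgebra.mem_centralizer_iff]
    rintro z rfl
    rcases hx with rfl | rfl
    · rfl
    · exact mem_cent.1 (P.Mov_le_cent u hy)
  have h2 := h1 hf
  rw [Subalgebra.mem_centralizer_iff] at h2
  exact h2 _ rfl

/-- **§J(j)**: `dim 𝔸_u ≥ dim 𝒫_u + q`. -/
theorem finrank_Ann_ge (h1 : P.τ 1 = 1) {u : ℕ} {S : ℕ → Set A} (hmov : P.Mov u ≤ RR P S u)
    {y : A} (hy : y ∈ P.Mov u) {Λ q : ℕ}
    (hbig : Λ ≤ finrank K (eIm P (Subalgebra.toSubmodule (Fy P u y)) (RR P S u)))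
    (htight : finrank K (Ay P u y) + q ≤ Λ) :
    finrank K (PPl P S u) + q ≤ finrank K (P.Ann u) := by
  classical
  have hτ := St.isTraceForm P h1
  set E := Fy P u y with hE
  set E' := Subalgebra.toSubmodule E with hE'
  set eM := Ay P u y with heM
  set eR := eIm P E' (RR P S u) with heR
  have hMle : eM ≤ E' := fun x hx => hx.1
  have hRle : eR ≤ E' := fun x hx => hx.1
  have hMR : eM ≤ eR := by
    rintro f ⟨hf, z, hz, h⟩
    exact ⟨hf, z, hmov hz, h⟩
  let K₁ := perpR P.τ E' eM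
  let K₂ := perpR P.τ E' eR
  have h2 : finrank K K₁ + finrank K eM = finrank K E := finrank_perpR P.τ_comm h1 E hMle
  have h3 : finrank K K₂ + finrank K eR = finrank K E := finrank_perpR P.τ_comm h1 E hRle
  -- `K₁ ≤ Ann`
  have h4 : K₁ ≤ P.Ann u := by
    rintro f ⟨hf, hf'⟩
    refine ⟨Fy_le_cent P hy hf, fun z hz => ?_⟩
    have h5 : P.τ (f * CentFacts.eProj hτ E z) = P.τ (f * z) :=
      CentFacts.trace_mul_eProj hτ E hf z
    rw [← h5]
    refine hf' _ ?_
    refine ⟨CentFacts.eProj_mem hτ E z, z, hz, fun f' hf'' => ?_⟩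
    exact CentFacts.trace_eProj_mul hτ E hf'' z
  -- `𝒫 ≤ Ann`
  have h6 : PPl P S u ≤ P.Ann u := by
    intro p hp
    refine ⟨?_, fun z hz => (hmov hz).2 p hp⟩
    exact mem_cent.1 (AdmExist.PPl_le_cent P S u hp)
  -- `K₁ ∩ 𝒫 ≤ K₂`
  have h7 : K₁ ⊓ PPl P S u ≤ K₂ := by
    rintro f ⟨⟨hf, _⟩, hp⟩
    refine ⟨hf, ?_⟩
    rintro s ⟨_, r, hr, h⟩
    have h8 := h f hf
    rw [P.τ_comm f s, h8, P.τ_comm]
    have := hr.2 f hp
    rwa [P.τ_comm] at this ⊢
  have h9 : K₁ ⊔ PPl P S u ≤ P.Ann u := sup_le h4 h6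
  have h10 := Submodule.finrank_sup_add_finrank_inf_eq K₁ (PPl P S u)
  have h11 := Submodule.finrank_mono h9
  have h12 := Submodule.finrank_mono h7
  have h13 : finrank K eM ≤ finrank K E := by omega
  have h14 : finrank K eR ≤ finrank K E := by omega
  omega

/-- `dim R_u ≥ dim Mov_u + q`. -/
theorem finrank_RR_ge (h1 : P.τ 1 = 1) {u : ℕ} {S : ℕ → Set A} (hmov : P.Mov u ≤ RR P S u)
    {y : A} (hy : y ∈ P.Mov u) {Λ q : ℕ}
    (hbig : Λ ≤ finrank K (eIm P (Subalgebra.toSubmodule (Fy P u y)) (RR P S u)))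
    (htight : finrank K (Ay P u y) + q ≤ Λ) :
    finrank K (P.Mov u) + q ≤ finrank K (RR P S u) := by
  have h2 := finrank_Ann_ge P h1 hmov hy hbig htight
  have h3 := P.finrank_Ann_add u
  have h4 := AdmExist.finrank_RR_add P S u
  omega

/-- **§J(j) at a valid state**: the tight test gives the equality `dim R_u = dim Mov_u + q_u`. -/
theorem finrank_RR_eq {N : ℕ} {R : ℕ → Rec} {Q : ℕ → Polynomial F} {l r : ℕ} {S : ℕ → Set A}
    {TT : Submodule K (Fin 2 → A)} (hV : Valid P N R Q l r S TT) {u : ℕ} (hu : u < l)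
    (ht : ∀ y ∈ S u, finrank K (Ay P u y) + (R u).q ≤ N / (R u).σ) :
    finrank K (RR P S u) = finrank K (P.Mov u) + (R u).q := by
  obtain ⟨y, hy⟩ := hV.S_ne u hu
  have hg := hV.S_good u hu y hy
  exact le_antisymm (hV.mov_codim u hu)
    (finrank_RR_ge P hV.one (hV.mov_le u hu) hg.mem (hV.big u hu y hy) (ht y hy))

end Crest.Agent.Kurosh.ValJ
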